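import Claimed.Agent.R282.S2AB.PM.Height
import Claimed.Agent.R282.Sched.Shape

/-!
# Package PM, layer T: translation between LS words and the real path classes
-/

set_option autoImplicit false

namespace Claimed.Agent.R282

variable {n : ℕ}

/-! ### casts -/

theorem pmt_cast_add (x y : Fin n → ℤ) : castV (x + y) = castV x + castV y := by
  funext i
  simp [castV]

theorem pmt_cast_sub (x y : Fin n → ℤ) : castV (x - y) = castV x - castV y := by
  funext i
  simp [castV]

theorem pmt_cast_zero : castV (0 : Fin n → ℤ) = 0 := by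
  funext i
  simp [castV]

theorem pmt_cast_smul (a : ℤ) (x : Fin n → ℤ) : castV (a • x) = (a : ℝ) • castV x := by
  funext i
  simp [castV]

/-! ### T0 -/

theorem pmt_natAbs_le (d : Fin n → ℤ) (γ : RootD n) :
    (dotZ d γ.vecZ).natAbs ≤ ∑ k, (d k).natAbs := by
  rw [dotZ_vecZ]
  have h1 : (sgnZ γ.si * d γ.i + sgnZ γ.sj * d γ.j).natAbs ≤ (d γ.i).natAbs + (d γ.j).natAbs := by
    refine (Int.natAbs_add_le _ _).trans ?_
    rw [Int.natAbs_mul, Int.natAbs_mul]
    have : ∀ b, (sgnZ b).natAbs = 1 := by intro b; cases b <;> simp [sgnZ]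
    rw [this, this]
    simp
  have h2 : (d γ.i).natAbs + (d γ.j).natAbs ≤ ∑ k, (d k).natAbs := by
    have := Finset.sum_le_sum_of_subset (f := fun k => (d k).natAbs)
      (Finset.subset_univ {γ.i, γ.j})
    rwa [Finset.sum_pair γ.ne] at this
  exact h1.trans h2

/-- (T0) e.g. the product of all `|d · γ|` (nonzero by regularity) -/
theorem exists_goodMod (θ : List (Fin n → ℤ)) (hθ : ∀ v ∈ θ, Ty.D.Reg (castV v)) :
    ∃ L, GoodMod θ L := by
  refine ⟨((θ.map fun d : Fin n → ℤ => ∑ k, (d k).natAbs).sum).factorial, Nat.factorial_pos _, ?_⟩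
  intro d hd γ
  have h0 : dotZ d γ.vecZ ≠ 0 := regZ_ne (regZ_of_reg (hθ d hd)) γ
  have h1 : ∑ k, (d k).natAbs ≤ (θ.map fun d : Fin n → ℤ => ∑ k, (d k).natAbs).sum :=
    List.single_le_sum (fun _ _ => Nat.zero_le _) _ (List.mem_map.2 ⟨d, hd, rfl⟩)
  have h2 : (dotZ d γ.vecZ).natAbs ∣ ((θ.map fun d : Fin n → ℤ => ∑ k, (d k).natAbs).sum).factorial :=
    Nat.dvd_factorial (Int.natAbs_pos.2 h0) ((pmt_natAbs_le d γ).trans h1)
  exact Int.natAbs_dvd.1 (Int.natCast_dvd_natCast.2 h2)

/-! ### T1a -/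

/-- the real shape is affine on the fine pieces -/
theorem pmt_val_seg (θ : List (Fin n → ℤ)) (L : ℕ) (hL : 0 < L) (k : ℕ) (hk : k < θ.length * L)
    (t : ℝ) (h0 : (k : ℝ) / L ≤ t) (h1 : t ≤ ((k + 1 : ℕ) : ℝ) / L) :
    Shape.val (θ.map castV) t
      = Shape.val (θ.map castV) ((k : ℝ) / L) + (t - (k : ℝ) / L) • castV (pcs θ L k) := by
  have hLr : (0 : ℝ) < L := by exact_mod_cast hL
  have hj : k / L < θ.length := Nat.div_lt_of_lt_mul (by rwa [Nat.mul_comm] at hk)
  have hj' : k / L < (θ.map castV).length := by simpa using hj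
  have e1 : ((k / L : ℕ) : ℝ) ≤ (k : ℝ) / L := by
    rw [le_div_iff₀ hLr]
    exact_mod_cast Nat.div_mul_le_self k L
  have e2 : ((k + 1 : ℕ) : ℝ) / L ≤ ((k / L : ℕ) : ℝ) + 1 := by
    rw [div_le_iff₀ hLr]
    have : k + 1 ≤ (k / L + 1) * L := by
      have h5 := Nat.div_add_mod k L
      have h6 := Nat.mod_lt k hL
      rw [Nat.add_mul, Nat.one_mul, Nat.mul_comm]
      omega
    exact_mod_cast this
  have e3 : (k : ℝ) / L ≤ ((k + 1 : ℕ) : ℝ) / L := h0.trans h1
  rw [sc_val_segment _ (k / L) hj' t (e1.trans h0) (h1.trans e2),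
    sc_val_segment _ (k / L) hj' ((k : ℝ) / L) e1 (e3.trans e2)]
  have e4 : (θ.map castV)[k / L] = castV (pcs θ L k) := by
    unfold pcs
    rw [List.getD_eq_getElem _ _ hj, List.getElem_map]
  rw [e4, add_assoc, ← add_smul]
  congr 2
  ring

/-- (T1a) the real shape at time `k / L` -/
theorem shape_val_grid (θ : List (Fin n → ℤ)) (L : ℕ) (hL : 0 < L) (k : ℕ)
    (hk : k ≤ θ.length * L) :
    Shape.val (θ.map castV) ((k : ℝ) / L) = (L : ℝ)⁻¹ • castV (etaZ θ L k) := by
  have hLr : (0 : ℝ) < L := by exact_mod_cast hL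
  induction k with
  | zero =>
    rw [etaZ_zero, pmt_cast_zero, smul_zero, Nat.cast_zero, zero_div, sc_val_zero]
  | succ k ih =>
    have e3 : (k : ℝ) / L ≤ ((k + 1 : ℕ) : ℝ) / L := by
      apply div_le_div_of_nonneg_right _ hLr.le
      push_cast
      linarith
    rw [pmt_val_seg θ L hL k (by omega) _ e3 le_rfl, ih (by omega), etaZ_succ, pmt_cast_add,
      smul_add]
    congr 2
    push_cast
    field_simp
    ring

/-! ### T1b -/

/-- (T1b) a chain of downward reflections as a list of simultaneous switches -/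
theorem wge_switches {u v : WD n} (h : WGe u v) :
    ∃ l : List (RootD n), (l.foldl (fun w β => WD.rmul β w) u = v) ∧
      ∀ (l₁ l₂ : List (RootD n)) (β : RootD n), l = l₁ ++ β :: l₂ →
        β.PosZ ∧ dotZ ((l₁.foldl (fun w β => WD.rmul β w) u).actZ (rhoZ n)) β.vecZ < 0 := by
  induction h using Relation.ReflTransGen.head_induction_on with
  | refl =>
    refine ⟨[], rfl, ?_⟩
    intro l₁ l₂ β h
    simp at h
  | @head a c hac _ ih =>
    obtain ⟨β, hβ1, hβ2, rfl⟩ := hac
    obtain ⟨l, hl1, hl2⟩ := ih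
    refine ⟨β :: l, hl1, ?_⟩
    intro l₁ l₂ γ h
    cases l₁ with
    | nil =>
      simp only [List.nil_append, List.cons.injEq] at h
      obtain ⟨rfl, -⟩ := h
      exact ⟨hβ1, hβ2⟩
    | cons δ l₁ =>
      simp only [List.cons_append, List.cons.injEq] at h
      obtain ⟨rfl, h⟩ := h
      exact hl2 l₁ l₂ γ h

/-! ### PM-7a: state machine lemmas -/

theorem pmt_step_pos (θ : Shape n) (S : SwState n) (t : ℝ) (β : RootD n) :
    (S.step θ t β).pos θ t = S.pos θ t := by
  show S.c - (- dot β.vec (S.frame (θ.val t))) • β.vec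
      + (S.frame (θ.val t) - dot (S.frame (θ.val t)) β.vec • β.vec) = S.c + S.frame (θ.val t)
  rw [sc_dot_comm β.vec]
  funext i
  simp only [Pi.add_apply, Pi.sub_apply, Pi.smul_apply, smul_eq_mul]
  ring

theorem pmt_inDom_glue (θ : Shape n) (a b : ℝ) (S : SwState n) (l : List (ℝ × RootD n))
    (h1 : ∀ t, a ≤ t → t ≤ b → Dom (S.pos θ t)) (h2 : SwInDom .D θ b S l) :
    SwInDom .D θ a S l := by
  cases l with
  | nil =>
    intro t h3 h4
    rcases le_total t b with h | h
    · exact h1 t h3 h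
    · exact h2 t h h4
  | cons p l =>
    refine ⟨fun t h3 h4 => ?_, h2.2⟩
    rcases le_total t b with h | h
    · exact h1 t h3 h
    · exact h2.1 t h h4

theorem pmt_chain (θ : Shape n) (t1 : ℝ) (rest : List (ℝ × RootD n)) :
    ∀ (c : List (RootD n)) (w : WD n) (S : SwState n) (a : ℝ), S.frame = w.act → a ≤ t1 →
      (∀ (l₁ l₂ : List (RootD n)) (β : RootD n), c = l₁ ++ β :: l₂ →
        β.PosZ ∧ dotZ ((l₁.foldl (fun w β => WD.rmul β w) w).actZ (rhoZ n)) β.vecZ < 0) →
      (∀ t, a ≤ t → t ≤ t1 → Dom (S.pos θ t)) →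
      ∃ S' : SwState n, S'.frame = (c.foldl (fun w β => WD.rmul β w) w).act ∧
        S'.pos θ t1 = S.pos θ t1 ∧
        runSw θ S (c.map (fun β => (t1, β)) ++ rest) = runSw θ S' rest ∧
        (SwDown θ S' rest → SwDown θ S (c.map (fun β => (t1, β)) ++ rest)) ∧
        (SwInDom .D θ t1 S' rest → SwInDom .D θ a S (c.map (fun β => (t1, β)) ++ rest)) := by
  intro c
  induction c with
  | nil =>
    intro w S a hS ha _ hdom
    exact ⟨S, hS, rfl, rfl, fun h => h, fun h => pmt_inDom_glue θ a t1 S rest hdom h⟩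
  | cons β c ih =>
    intro w S a hS ha hc hdom
    have hS1 : (S.step θ t1 β).frame = (WD.rmul β w).act := by
      funext x
      show refl β (S.frame x) = _
      rw [hS, pm_act_rmul]
    obtain ⟨S', h1, h2, h3, h4, h5⟩ := ih (WD.rmul β w) (S.step θ t1 β) t1 hS1 le_rfl
      (fun l₁ l₂ γ h => hc (β :: l₁) l₂ γ (by rw [h]; rfl))
      (fun t h6 h7 => by
        have : t = t1 := le_antisymm h7 h6
        rw [this, pmt_step_pos]
        exact hdom t1 ha le_rfl)
    obtain ⟨hβ1, hβ2⟩ := hc [] c β rfl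
    refine ⟨S', h1, h2.trans (pmt_step_pos θ S t1 β), h3, fun h => ⟨?_, ?_, h4 h⟩,
      fun h => ⟨hdom, h5 h⟩⟩
    · have := (pos_iff_posZ β).2 hβ1
      unfold RootD.Pos at this
      rwa [sc_dot_comm] at this
    · show dot (S.frame (rhoV n)) β.vec < 0
      rw [hS]
      exact (pm_dot_rho_neg_iff w β).2 hβ2

/-- the position on one fine piece -/
theorem pmt_piece (θ : List (Fin n → ℤ)) (L : ℕ) (hL : 0 < L) (k : ℕ) (hk : k < θ.length * L)
    (w : WD n) (S : SwState n) (hS : S.frame = w.act)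
    (t : ℝ) (h0 : (k : ℝ) / L ≤ t) (h1 : t ≤ ((k + 1 : ℕ) : ℝ) / L) :
    S.pos (θ.map castV) t = S.pos (θ.map castV) ((k : ℝ) / L)
      + (t - (k : ℝ) / L) • castV (w.actZ (pcs θ L k)) := by
  show S.c + S.frame (Shape.val (θ.map castV) t)
    = S.c + S.frame (Shape.val (θ.map castV) ((k : ℝ) / L)) + _
  rw [pmt_val_seg θ L hL k hk t h0 h1, hS, (sc_WD_act_isLinear w).map_add,
    (sc_WD_act_isLinear w).map_smul, castV_actZ, add_assoc]

/-- vertex `k` of the real path -/
noncomputable def pmtP (θ : List (Fin n → ℤ)) (L : ℕ) (lam : Fin n → ℤ) (u : Word n θ L) (k : ℕ) :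
    Vec n := castV lam + (L : ℝ)⁻¹ • castV (vtx θ L u k)

theorem pmt_P_dom (θ : List (Fin n → ℤ)) (L : ℕ) (hL : 0 < L) (lam : Fin n → ℤ) (u : Word n θ L)
    (hd : LamDom lam θ L u) (k : ℕ) : Dom (pmtP θ L lam u k) := by
  have hLr : (0 : ℝ) < L := by exact_mod_cast hL
  have h1 : Dom (castV ((L : ℤ) • lam + vtx θ L u k)) := (domZ_iff _).1 (hd k)
  have h2 : pmtP θ L lam u k = (L : ℝ)⁻¹ • castV ((L : ℤ) • lam + vtx θ L u k) := by
    rw [pmt_cast_add, pmt_cast_smul, smul_add, smul_smul]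
    unfold pmtP
    congr 1
    rw [Int.cast_natCast, inv_mul_cancel₀ hLr.ne', one_smul]
  rw [h2]
  exact sc_dom_smul h1 (inv_nonneg.2 hLr.le)

theorem pmt_P_succ (θ : List (Fin n → ℤ)) (L : ℕ) (lam : Fin n → ℤ) (u : Word n θ L) (k : ℕ)
    (hk : k < θ.length * L) :
    pmtP θ L lam u (k + 1)
      = pmtP θ L lam u k + (L : ℝ)⁻¹ • castV ((u ⟨k, hk⟩).actZ (pcs θ L k)) := by
  unfold pmtP
  rw [vtx_succ u k hk, pmt_cast_add, smul_add, add_assoc]

theorem pmt_piece_end (θ : List (Fin n → ℤ)) (L : ℕ) (hL : 0 < L) (lam : Fin n → ℤ)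
    (u : Word n θ L) (k : ℕ) (hk : k < θ.length * L) (S : SwState n)
    (hS : S.frame = (u ⟨k, hk⟩).act) (hp : S.pos (θ.map castV) ((k : ℝ) / L) = pmtP θ L lam u k) :
    S.pos (θ.map castV) (((k + 1 : ℕ) : ℝ) / L) = pmtP θ L lam u (k + 1) := by
  have hLr : (0 : ℝ) < L := by exact_mod_cast hL
  have e3 : (k : ℝ) / L ≤ ((k + 1 : ℕ) : ℝ) / L := by
    apply div_le_div_of_nonneg_right _ hLr.le
    push_cast
    linarith
  rw [pmt_piece θ L hL k hk _ S hS _ e3 le_rfl, hp, pmt_P_succ θ L lam u k hk]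
  congr 2
  push_cast
  field_simp
  ring

theorem pmt_piece_dom (θ : List (Fin n → ℤ)) (L : ℕ) (hL : 0 < L) (lam : Fin n → ℤ)
    (u : Word n θ L) (hd : LamDom lam θ L u) (k : ℕ) (hk : k < θ.length * L) (S : SwState n)
    (hS : S.frame = (u ⟨k, hk⟩).act) (hp : S.pos (θ.map castV) ((k : ℝ) / L) = pmtP θ L lam u k)
    (t : ℝ) (h0 : (k : ℝ) / L ≤ t) (h1 : t ≤ ((k + 1 : ℕ) : ℝ) / L) :
    Dom (S.pos (θ.map castV) t) := by
  have hLr : (0 : ℝ) < L := by exact_mod_cast hL
  have e : S.pos (θ.map castV) t = (1 - (t - (k : ℝ) / L) * L) • pmtP θ L lam u k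
      + ((t - (k : ℝ) / L) * L) • pmtP θ L lam u (k + 1) := by
    rw [pmt_piece θ L hL k hk _ S hS t h0 h1, hp, pmt_P_succ θ L lam u k hk, smul_add, smul_smul,
      ← add_assoc, ← add_smul, mul_assoc, mul_inv_cancel₀ hLr.ne', mul_one, sub_add_cancel,
      one_smul]
  rw [e]
  apply sc_dom_add
  · apply sc_dom_smul (pmt_P_dom θ L hL lam u hd k)
    have : t * L ≤ ((k + 1 : ℕ) : ℝ) := by rwa [le_div_iff₀ hLr] at h1
    push_cast at this
    have h2 : (t - (k : ℝ) / L) * L = t * L - k := by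
      field_simp
    rw [h2]
    linarith
  · apply sc_dom_smul (pmt_P_dom θ L hL lam u hd (k + 1))
    exact mul_nonneg (by linarith) hLr.le

/-- the switches at the grid times `(k+1)/L, …, (k+m)/L` -/
noncomputable def pmtSw (L : ℕ) (ch : ℕ → List (RootD n)) : ℕ → ℕ → List (ℝ × RootD n)
  | 0, _ => []
  | m + 1, k => (ch k).map (fun β => (((k + 1 : ℕ) : ℝ) / L, β)) ++ pmtSw L ch m (k + 1)

theorem pmt_times (L : ℕ) (hL : 0 < L) (ch : ℕ → List (RootD n)) :
    ∀ (m k : ℕ), ∀ p ∈ pmtSw L ch m k,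
      ((k + 1 : ℕ) : ℝ) / L ≤ p.1 ∧ p.1 ≤ ((k + m : ℕ) : ℝ) / L := by
  have hLr : (0 : ℝ) < L := by exact_mod_cast hL
  intro m
  induction m with
  | zero => intro k p hp; simp [pmtSw] at hp
  | succ m ih =>
    intro k p hp
    rw [pmtSw, List.mem_append] at hp
    rcases hp with hp | hp
    · obtain ⟨β, -, rfl⟩ := List.mem_map.1 hp
      refine ⟨le_rfl, ?_⟩
      apply div_le_div_of_nonneg_right _ hLr.le
      exact_mod_cast (by omega : k + 1 ≤ k + (m + 1))
    · obtain ⟨h1, h2⟩ := ih (k + 1) p hp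
      refine ⟨le_trans ?_ h1, le_trans h2 ?_⟩
      · apply div_le_div_of_nonneg_right _ hLr.le
        exact_mod_cast (by omega : k + 1 ≤ k + 1 + 1)
      · apply div_le_div_of_nonneg_right _ hLr.le
        exact_mod_cast (by omega : k + 1 + m ≤ k + (m + 1))

theorem pmt_sorted (L : ℕ) (hL : 0 < L) (ch : ℕ → List (RootD n)) :
    ∀ (m k : ℕ), (pmtSw L ch m k).Pairwise (fun p q => p.1 ≤ q.1) := by
  have hLr : (0 : ℝ) < L := by exact_mod_cast hL
  intro m
  induction m with
  | zero => intro k; simp [pmtSw]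
  | succ m ih =>
    intro k
    rw [pmtSw, List.pairwise_append]
    refine ⟨?_, ih (k + 1), ?_⟩
    · rw [List.pairwise_map]
      exact List.pairwise_of_forall (fun _ _ => le_rfl)
    · intro p hp q hq
      obtain ⟨β, -, rfl⟩ := List.mem_map.1 hp
      refine le_trans ?_ (pmt_times L hL ch m (k + 1) q hq).1
      apply div_le_div_of_nonneg_right _ hLr.le
      exact_mod_cast (by omega : k + 1 ≤ k + 1 + 1)

theorem pmt_main (θ : List (Fin n → ℤ)) (L : ℕ) (hL : 0 < L) (lam : Fin n → ℤ) (u : Word n θ L)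
    (hd : LamDom lam θ L u) (ch : ℕ → List (RootD n))
    (hch : ∀ (k : ℕ) (h1 : k < θ.length * L) (h2 : k + 1 < θ.length * L),
      ((ch k).foldl (fun w β => WD.rmul β w) (u ⟨k, h1⟩) = u ⟨k + 1, h2⟩) ∧
      ∀ (l₁ l₂ : List (RootD n)) (β : RootD n), ch k = l₁ ++ β :: l₂ →
        β.PosZ ∧
          dotZ ((l₁.foldl (fun w β => WD.rmul β w) (u ⟨k, h1⟩)).actZ (rhoZ n)) β.vecZ < 0) :
    ∀ (m k : ℕ) (hk : k < θ.length * L) (S : SwState n), k + m + 1 = θ.length * L →
      S.frame = (u ⟨k, hk⟩).act → S.pos (θ.map castV) ((k : ℝ) / L) = pmtP θ L lam u k →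
      SwDown (θ.map castV) S (pmtSw L ch m k) ∧
      SwInDom .D (θ.map castV) ((k : ℝ) / L) S (pmtSw L ch m k) ∧
      (runSw (θ.map castV) S (pmtSw L ch m k)).pos (θ.map castV) (θ.length : ℝ)
        = pmtP θ L lam u (θ.length * L) := by
  have hLr : (0 : ℝ) < L := by exact_mod_cast hL
  intro m
  induction m with
  | zero =>
    intro k hk S hkm hS hp
    have hT : (θ.length : ℝ) = ((k + 1 : ℕ) : ℝ) / L := by
      rw [eq_div_iff hLr.ne']
      exact_mod_cast hkm.symm
    refine ⟨trivial, ?_, ?_⟩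
    · intro t h0 h1
      have h1' : t ≤ ((k + 1 : ℕ) : ℝ) / L := by
        rw [← hT]
        simpa using h1
      exact pmt_piece_dom θ L hL lam u hd k hk S hS hp t h0 h1'
    · show S.pos (θ.map castV) (θ.length : ℝ) = _
      rw [hT, pmt_piece_end θ L hL lam u k hk S hS hp, ← hkm]
  | succ m ih =>
    intro k hk S hkm hS hp
    have hk1 : k + 1 < θ.length * L := by omega
    obtain ⟨hc1, hc2⟩ := hch k hk hk1
    have e3 : (k : ℝ) / L ≤ ((k + 1 : ℕ) : ℝ) / L := by
      apply div_le_div_of_nonneg_right _ hLr.le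
      push_cast
      linarith
    obtain ⟨S', h1, h2, h3, h4, h5⟩ := pmt_chain (θ.map castV) (((k + 1 : ℕ) : ℝ) / L)
      (pmtSw L ch m (k + 1)) (ch k) (u ⟨k, hk⟩) S ((k : ℝ) / L) hS e3 hc2
      (fun t h0 h1 => pmt_piece_dom θ L hL lam u hd k hk S hS hp t h0 h1)
    rw [hc1] at h1
    rw [pmt_piece_end θ L hL lam u k hk S hS hp] at h2
    obtain ⟨g1, g2, g3⟩ := ih (k + 1) hk1 S' (by omega) h1 h2
    refine ⟨h4 g1, h5 g2, ?_⟩
    show (runSw (θ.map castV) S ((ch k).map (fun β => (((k + 1 : ℕ) : ℝ) / L, β))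
      ++ pmtSw L ch m (k + 1))).pos (θ.map castV) (θ.length : ℝ) = _
    rw [h3, g3]

/-- (PM-7a) an LS word is a decreasing path: `w0 = u_0`, at time `k / L` the switches of the chain
`u_{k-1} ≥ u_k` (T1b); position at time `k / L` is `lam + x_k / L` (T1a, induction); between two
grid times the path is affine, so dominance follows from the vertices (the chamber is convex). -/
theorem ls_decpath (θ : List (Fin n → ℤ)) (hθ : ∀ v ∈ θ, Ty.D.Reg (castV v)) (L : ℕ)
    (hL : GoodMod θ L) (lam κ : Fin n → ℤ) (u : Word n θ L) (hu : IsLS θ L u)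
    (hd : LamDom lam θ L u) (he : EndsAt θ L u (κ - lam)) :
    HasDecPath Ty.D (castV lam) (θ.map castV) (castV κ) := by
  have hL0 : 0 < L := hL.1
  have hLr : (0 : ℝ) < L := by exact_mod_cast hL0
  have hend : pmtP θ L lam u (θ.length * L) = castV κ := by
    unfold pmtP
    rw [he, pmt_cast_smul, smul_smul, Int.cast_natCast, inv_mul_cancel₀ hLr.ne', one_smul,
      pmt_cast_sub]
    abel
  have hP0 : pmtP θ L lam u 0 = castV lam := by
    unfold pmtP
    rw [vtx_zero, pmt_cast_zero, smul_zero, add_zero]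
  rcases Nat.eq_zero_or_pos (θ.length * L) with hN | hN
  · -- the empty shape
    have hθ0 : θ = [] := by
      rcases Nat.mul_eq_zero.1 hN with h | h
      · exact List.length_eq_zero_iff.1 h
      · omega
    subst hθ0
    have hκ : castV κ = castV lam := by
      rw [← hend, ← hP0]
      simp
    refine ⟨1, [], trivial, by simp, by simp, by simp, trivial, ?_, ?_⟩
    · intro t _ _
      show Dom (castV lam + (1 : WD n).act 0)
      rw [(sc_WD_act_isLinear (1 : WD n)).map_zero, add_zero, ← hP0]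
      exact pmt_P_dom [] L hL0 lam u hd 0
    · show castV lam + (1 : WD n).act 0 = castV κ
      rw [(sc_WD_act_isLinear (1 : WD n)).map_zero, add_zero, hκ]
  · classical
    have hex : ∀ k : ℕ, ∃ c : List (RootD n),
        ∀ (h1 : k < θ.length * L) (h2 : k + 1 < θ.length * L),
        (c.foldl (fun w β => WD.rmul β w) (u ⟨k, h1⟩) = u ⟨k + 1, h2⟩) ∧
        ∀ (l₁ l₂ : List (RootD n)) (β : RootD n), c = l₁ ++ β :: l₂ →
          β.PosZ ∧
            dotZ ((l₁.foldl (fun w β => WD.rmul β w) (u ⟨k, h1⟩)).actZ (rhoZ n)) β.vecZ < 0 := by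
      intro k
      by_cases h2 : k + 1 < θ.length * L
      · have h1 : k < θ.length * L := by omega
        obtain ⟨c, hc⟩ := wge_switches (linked_wge (hu ⟨k, h1⟩ ⟨k + 1, h2⟩ rfl))
        exact ⟨c, fun _ _ => hc⟩
      · exact ⟨[], fun _ h => absurd h h2⟩
    choose ch hch using hex
    have hS0 : (⟨(u ⟨0, hN⟩).act, castV lam⟩ : SwState n).pos (θ.map castV) (((0 : ℕ) : ℝ) / L)
        = pmtP θ L lam u 0 := by
      show castV lam + (u ⟨0, hN⟩).act (Shape.val (θ.map castV) (((0 : ℕ) : ℝ) / L)) = _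
      rw [Nat.cast_zero, zero_div, sc_val_zero, (sc_WD_act_isLinear _).map_zero, add_zero, hP0]
    obtain ⟨g1, g2, g3⟩ := pmt_main θ L hL0 lam u hd ch hch (θ.length * L - 1) 0 hN
      ⟨(u ⟨0, hN⟩).act, castV lam⟩ (by omega) rfl hS0
    refine ⟨u ⟨0, hN⟩, pmtSw L ch (θ.length * L - 1) 0, trivial, fun _ _ => trivial, ?_,
      pmt_sorted L hL0 ch _ _, g1, ?_, ?_⟩
    · intro p hp
      obtain ⟨h1, h2⟩ := pmt_times L hL0 ch _ _ p hp
      constructor
      · exact le_trans (by positivity) h1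
      · refine le_trans h2 ?_
        rw [div_le_iff₀ hLr, List.length_map]
        exact_mod_cast (by omega : 0 + (θ.length * L - 1) ≤ θ.length * L)
    · simpa using g2
    · rw [List.length_map, g3, hend]

/-! ### PM-7b -/

theorem pmt_cast_list_sum (l : List (Fin n → ℤ)) : castV l.sum = (l.map castV).sum := by
  induction l with
  | nil => exact pmt_cast_zero
  | cons a l ih => rw [List.sum_cons, pmt_cast_add, ih, List.map_cons, List.sum_cons]

/-- piece `b` of a vertex path -/
def pmtA (P : List (WD n × (Fin n → ℤ))) (b : ℕ) : WD n × (Fin n → ℤ) := P.getD b (1, 0)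

/-- vertex `b` of a vertex path -/
def pmtV (P : List (WD n × (Fin n → ℤ))) (b : ℕ) : Fin n → ℤ :=
  ((P.map fun a => a.1.actZ a.2).take b).sum

/-- the word which is constant on the blocks -/
def pmtW (P : List (WD n × (Fin n → ℤ))) (L : ℕ) : Word n (P.map fun a => a.2) L :=
  fun i => (pmtA P ((i : ℕ) / L)).1

theorem pmt_pcs (P : List (WD n × (Fin n → ℤ))) (L k : ℕ) :
    pcs (P.map fun a => a.2) L k = (pmtA P (k / L)).2 := by
  unfold pcs pmtA
  exact List.getD_map P ((1 : WD n), (0 : Fin n → ℤ)) (fun a : WD n × (Fin n → ℤ) => a.2)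

theorem pmt_V_succ (P : List (WD n × (Fin n → ℤ))) (b : ℕ) :
    pmtV P (b + 1) = pmtV P b + (pmtA P b).1.actZ (pmtA P b).2 := by
  unfold pmtV pmtA
  rw [sum_take_succ_getD]
  congr 1
  have h := List.getD_map P ((1 : WD n), (0 : Fin n → ℤ)) (n := b)
    (fun a : WD n × (Fin n → ℤ) => a.1.actZ a.2)
  rw [← h]
  congr 1

theorem pmt_V_cast (P : List (WD n × (Fin n → ℤ))) (b : ℕ) :
    castV (pmtV P b)
      = (((P.map fun a => (a.1, castV a.2)).take b).map fun a => a.1.act a.2).sum := by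
  unfold pmtV
  rw [pmt_cast_list_sum, List.map_take, List.map_take, List.map_map, List.map_map]
  congr 2
  apply List.map_congr_left
  intro a _
  exact castV_actZ a.1 a.2

theorem pmt_V_length (P : List (WD n × (Fin n → ℤ))) :
    castV (pmtV P P.length) = ((P.map fun a => (a.1, castV a.2)).map fun a => a.1.act a.2).sum := by
  rw [pmt_V_cast]
  congr 2
  apply List.take_of_length_le
  simp

theorem pmt_vtx_block (P : List (WD n × (Fin n → ℤ))) (L b c : ℕ) (hb : b < P.length)
    (hc : c ≤ L) :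
    vtx _ L (pmtW P L) (b * L + c)
      = vtx _ L (pmtW P L) (b * L) + (c : ℤ) • (pmtA P b).1.actZ (pmtA P b).2 := by
  induction c with
  | zero => simp
  | succ c ih =>
    have hk : b * L + c < (P.map fun a => a.2).length * L := by
      rw [List.length_map]
      calc b * L + c < b * L + L := by omega
        _ = (b + 1) * L := by ring
        _ ≤ P.length * L := Nat.mul_le_mul_right _ hb
    have e : (b * L + c) / L = b := by
      rw [Nat.mul_comm, Nat.mul_add_div (by omega), Nat.div_eq_of_lt (by omega)]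
      rfl
    rw [← add_assoc, vtx_succ _ _ hk, ih (by omega), pmt_pcs, e]
    show _ + (pmtA P ((b * L + c) / L)).1.actZ _ = _
    rw [e]
    push_cast
    rw [add_smul, one_smul, add_assoc]

theorem pmt_vtx_mul (P : List (WD n × (Fin n → ℤ))) (L b : ℕ) (hb : b ≤ P.length) :
    vtx _ L (pmtW P L) (b * L) = (L : ℤ) • pmtV P b := by
  induction b with
  | zero => simp [vtx_zero, pmtV]
  | succ b ih =>
    rw [Nat.succ_mul, pmt_vtx_block P L b L (by omega) le_rfl, ih (by omega), pmt_V_succ, smul_add]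

theorem pmt_domZ_comb {x y : Fin n → ℤ} (hx : DomZ x) (hy : DomZ y) (a b : ℕ) :
    DomZ ((a : ℤ) • x + (b : ℤ) • y) := by
  rw [domZ_iff, pmt_cast_add, pmt_cast_smul, pmt_cast_smul]
  exact sc_dom_add (sc_dom_smul ((domZ_iff x).1 hx) (by positivity))
    (sc_dom_smul ((domZ_iff y).1 hy) (by positivity))

theorem pmt_nat_aux (L i j : ℕ) (hL : 0 < L) (hij : i + 1 = j) (hq : i / L ≠ j / L) :
    i / L < j / L ∧ j = j / L * L := by
  have h1 := Nat.div_add_mod i L
  have h2 := Nat.mod_lt i hL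
  have h3 := Nat.div_add_mod j L
  have h4 := Nat.mod_lt j hL
  have h5 : i / L ≤ j / L := Nat.div_le_div_right (by omega)
  have h6 : i / L < j / L := lt_of_le_of_ne h5 hq
  have h7 : L * (i / L + 1) ≤ L * (j / L) := Nat.mul_le_mul_left _ h6
  rw [Nat.mul_add, Nat.mul_one] at h7
  refine ⟨h6, ?_⟩
  rw [Nat.mul_comm]
  omega

/-- (PM-7b) an integral vertex path is an LS word of the shape given by its own pieces: the word is
constant `= w_j` on block `j`; links only at the vertices `j L`, where `η ∈ L ℤ^n` (`etaZ_block`),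
LK-0 and B9; vertices inside a block are convex combinations of its two ends. -/
theorem vpath_ls (lam xi : Fin n → ℤ) (P : List (WD n × (Fin n → ℤ)))
    (h : IsVPath Ty.D (castV lam) (P.map fun a => (a.1, castV a.2)) (castV xi)) (L : ℕ)
    (hL : GoodMod (P.map fun a => a.2) L) :
    ∃ u : Word n (P.map fun a => a.2) L, IsLS _ L u ∧ LamDom lam _ L u ∧ EndsAt _ L u (xi - lam) := by
  have hL0 : 0 < L := hL.1
  have hdom : ∀ b, DomZ (lam + pmtV P b) := by
    intro b
    rw [domZ_iff, pmt_cast_add, pmt_V_cast]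
    exact h.dom b
  have hlen : (P.map fun a => a.2).length = P.length := List.length_map _
  have hend : vtx _ L (pmtW P L) ((P.map fun a => a.2).length * L) = (L : ℤ) • (xi - lam) := by
    rw [hlen, pmt_vtx_mul P L P.length le_rfl]
    congr 1
    apply castV_injective
    rw [pmt_V_length, pmt_cast_sub, ← h.endpoint]
    abel
  refine ⟨pmtW P L, ?_, ?_, hend⟩
  · -- links
    intro i j hij
    have hj : (j : ℕ) < P.length * L := by
      have := j.2
      simpa using this
    by_cases hq : (i : ℕ) / L = (j : ℕ) / L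
    · have : pmtW P L i = pmtW P L j := by
        unfold pmtW
        rw [hq]
      rw [this]
      exact Relation.ReflTransGen.refl
    · -- `j` is a multiple of `L`
      obtain ⟨h6, h8⟩ := pmt_nat_aux L i j hL0 hij hq
      have h9 : (j : ℕ) / L < P.length := (Nat.div_lt_iff_lt_mul hL0).2 hj
      apply linked_of_wge
      · rw [← bge_iff_wge]
        have hp := h.dec
        rw [List.pairwise_map, List.pairwise_iff_getElem] at hp
        have := hp ((i : ℕ) / L) ((j : ℕ) / L) (by omega) h9 h6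
        unfold pmtW pmtA
        rw [List.getD_eq_getElem _ _ h9, List.getD_eq_getElem _ _ (by omega : (i : ℕ) / L < P.length)]
        exact this
      · intro a
        rw [h8, etaZ_mul]
        exact ⟨_, rfl⟩
  · -- dominance
    intro k
    by_cases hk : k < P.length * L
    · have hb : k / L < P.length := Nat.div_lt_of_lt_mul (by rwa [Nat.mul_comm] at hk)
      have h1 := Nat.div_add_mod k L
      have h2 := Nat.mod_lt k hL0
      have h3 : k = k / L * L + k % L := by
        rw [Nat.mul_comm]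
        omega
      have e : (L : ℤ) • lam + vtx _ L (pmtW P L) k
          = ((L - k % L : ℕ) : ℤ) • (lam + pmtV P (k / L))
            + ((k % L : ℕ) : ℤ) • (lam + pmtV P (k / L + 1)) := by
        conv_lhs => rw [h3]
        rw [pmt_vtx_block P L (k / L) (k % L) hb h2.le, pmt_vtx_mul P L (k / L) hb.le, pmt_V_succ,
          Nat.cast_sub h2.le]
        funext a
        simp only [Pi.add_apply, Pi.smul_apply, smul_eq_mul]
        ring
      rw [e]
      exact pmt_domZ_comb (hdom _) (hdom _) _ _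
    · rw [vtx_of_ge _ k (by rw [hlen]; omega), hlen, pmt_vtx_mul P L P.length le_rfl, ← smul_add]
      have := pmt_domZ_comb (hdom P.length) (hdom P.length) L 0
      simpa using this

end Claimed.Agent.R282
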