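import Claimed.Agent.R282.S2AB.PM.Weyl

/-!
# Package PM, layer B: Bruhat order on `WD n` (generated by downward reflections), covers

No length function, no reduced words.  Proof plans: `S2AB/Plan.lean`, package PM, layer B.
`u` is `α`-negative (`ANeg α u`) iff `u⁻¹ α < 0` iff `s_α u < u`.
-/

set_option autoImplicit false

namespace Claimed.Agent.R282

variable {n : ℕ}

/-- `u⁻¹ α < 0` -/
def ANeg (α : RootD n) (u : WD n) : Prop := dotZ (u.actZ (rhoZ n)) α.vecZ < 0

/-- Bruhat cover -/
def WCov (u v : WD n) : Prop := WDown u v ∧ ∀ z, WGe u z → WGe z v → z = u ∨ z = v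

open Classical in
/-- the `α`-negative element of `{u, s_α u}` -/
noncomputable def amax (α : RootD n) (u : WD n) : WD n := if ANeg α u then u else WD.rmul α u

open Classical in
/-- the `α`-positive element of `{u, s_α u}` -/
noncomputable def amin (α : RootD n) (u : WD n) : WD n := if ANeg α u then WD.rmul α u else u

theorem dotZ_rmul_self (α : RootD n) (u : WD n) (x : Fin n → ℤ) :
    dotZ ((WD.rmul α u).actZ x) α.vecZ = - dotZ (u.actZ x) α.vecZ := by
  rw [actZ_rmul, dotZ_reflZ_left, dotZ_vecZ_self]
  ring

/-- (B0) `s_α` exchanges `α`-negative and `α`-positive elements.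
[`<s_α u ρ, α> = - <u ρ, α>`, W1c, W2a, W3a] -/
theorem aneg_rmul (α : RootD n) (u : WD n) : ANeg α (WD.rmul α u) ↔ ¬ ANeg α u := by
  unfold ANeg
  rw [dotZ_rmul_self]
  have := dotZ_rho_ne u α
  omega

/-- (B0') [definition of `WDown` with `β = α`] -/
theorem wdown_simple_step {α : RootD n} (hα : IsSimpleR α) {u : WD n} (hu : ANeg α u) :
    WDown u (WD.rmul α u) := by
  exact ⟨α, hα.1, hu, rfl⟩

/-- (B1) LIFTING, one step.  If `v = s_β u` with `β ≠ α` then `s_α v = s_{s_α β} s_α u` (W5b),
`s_α β > 0` (W4) and `<s_α u ρ, s_α β> = <u ρ, β> < 0`. -/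
theorem wdown_lift {α : RootD n} (hα : IsSimpleR α) {u v : WD n} (h : WDown u v) :
    v = WD.rmul α u ∨ WDown (WD.rmul α u) (WD.rmul α v) := by
  obtain ⟨β, hβ, hneg, rfl⟩ := h
  by_cases e : β.vecZ = α.vecZ
  · exact Or.inl (rmul_congr (Or.inl e) u)
  · right
    obtain ⟨β', h1, h2⟩ := simple_refl_pos hα β hβ e
    refine ⟨β', h2, ?_, rmul_comm_conj α β β' h1 u⟩
    rw [actZ_rmul, h1, reflZ_eq_actZ, reflZ_eq_actZ, dotZ_actZ]
    exact hneg

theorem amax_of_neg {α : RootD n} {u : WD n} (h : ANeg α u) : amax α u = u := if_pos h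

theorem amax_of_pos {α : RootD n} {u : WD n} (h : ¬ ANeg α u) : amax α u = WD.rmul α u := if_neg h

theorem amin_of_neg {α : RootD n} {u : WD n} (h : ANeg α u) : amin α u = WD.rmul α u := if_pos h

theorem amin_of_pos {α : RootD n} {u : WD n} (h : ¬ ANeg α u) : amin α u = u := if_neg h

theorem amax_rmul (α : RootD n) (u : WD n) : amax α (WD.rmul α u) = amax α u := by
  by_cases h : ANeg α u
  · rw [amax_of_neg h, amax_of_pos (fun h' => (aneg_rmul α u).1 h' h), rmul_rmul]
  · rw [amax_of_pos h, amax_of_neg ((aneg_rmul α u).2 h)]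

theorem amin_rmul (α : RootD n) (u : WD n) : amin α (WD.rmul α u) = amin α u := by
  by_cases h : ANeg α u
  · rw [amin_of_neg h, amin_of_pos (fun h' => (aneg_rmul α u).1 h' h)]
  · rw [amin_of_pos h, amin_of_neg ((aneg_rmul α u).2 h), rmul_rmul]

/-- from a positive element one can step up -/
theorem wdown_simple_step' {α : RootD n} (hα : IsSimpleR α) {u : WD n} (hu : ¬ ANeg α u) :
    WDown (WD.rmul α u) u := by
  have := wdown_simple_step hα ((aneg_rmul α u).2 hu)
  rwa [rmul_rmul] at this

/-- (B2a) [induction on the chain; 4 sign cases per step, see Plan] -/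
theorem wge_amax {α : RootD n} (hα : IsSimpleR α) {u v : WD n} (h : WGe u v) :
    WGe (amax α u) (amax α v) := by
  induction h with
  | refl => exact Relation.ReflTransGen.refl
  | @tail v w _ hvw ih =>
    refine ih.trans ?_
    rcases wdown_lift hα hvw with e | hl
    · rw [e, amax_rmul]
    · by_cases h1 : ANeg α v <;> by_cases h2 : ANeg α w
      · rw [amax_of_neg h1, amax_of_neg h2]
        exact Relation.ReflTransGen.single hvw
      · rw [amax_of_neg h1, amax_of_pos h2]
        exact (Relation.ReflTransGen.single (wdown_simple_step hα h1)).tail hl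
      · rw [amax_of_pos h1, amax_of_neg h2]
        exact (Relation.ReflTransGen.single (wdown_simple_step' hα h1)).tail hvw
      · rw [amax_of_pos h1, amax_of_pos h2]
        exact Relation.ReflTransGen.single hl

/-- (B2b) -/
theorem wge_amin {α : RootD n} (hα : IsSimpleR α) {u v : WD n} (h : WGe u v) :
    WGe (amin α u) (amin α v) := by
  induction h with
  | refl => exact Relation.ReflTransGen.refl
  | @tail v w _ hvw ih =>
    refine ih.trans ?_
    rcases wdown_lift hα hvw with e | hl
    · rw [e, amin_rmul]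
    · by_cases h1 : ANeg α v <;> by_cases h2 : ANeg α w
      · rw [amin_of_neg h1, amin_of_neg h2]
        exact Relation.ReflTransGen.single hl
      · rw [amin_of_neg h1, amin_of_pos h2]
        exact (Relation.ReflTransGen.single hl).tail (wdown_simple_step' hα h2)
      · rw [amin_of_pos h1, amin_of_neg h2]
        exact (Relation.ReflTransGen.single hvw).tail (wdown_simple_step hα h2)
      · rw [amin_of_pos h1, amin_of_pos h2]
        exact Relation.ReflTransGen.single hvw

/-- (B3a) potential: `s_β u ρ = u ρ - <u ρ, β> β` and `<β, ρ> > 0`. -/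
theorem wdown_potential {u v : WD n} (h : WDown u v) :
    dotZ (u.actZ (rhoZ n)) (rhoZ n) < dotZ (v.actZ (rhoZ n)) (rhoZ n) := by
  obtain ⟨β, hβ, hneg, rfl⟩ := h
  have hβ' : 0 < dotZ β.vecZ (rhoZ n) := hβ
  rw [actZ_rmul, dotZ_reflZ_left]
  have := mul_neg_of_neg_of_pos hneg hβ'
  omega

theorem wge_potential {u v : WD n} (h : WGe u v) :
    u = v ∨ dotZ (u.actZ (rhoZ n)) (rhoZ n) < dotZ (v.actZ (rhoZ n)) (rhoZ n) := by
  induction h with
  | refl => exact Or.inl rfl
  | @tail v w _ hvw ih =>
    right
    have := wdown_potential hvw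
    rcases ih with e | h
    · rw [e]
      exact this
    · exact h.trans this

/-- (B3b) -/
theorem wge_antisymm {u v : WD n} (h1 : WGe u v) (h2 : WGe v u) : u = v := by
  rcases wge_potential h1 with e | h3
  · exact e
  · rcases wge_potential h2 with e | h4
    · exact e.symm
    · omega

/-- (B4) every comparison refines to a chain of covers.  [strong induction on the (finite) number of
elements of the interval, or on the potential difference; a `WDown` step that is not a cover has a
strictly intermediate element] -/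
theorem wge_covers {u v : WD n} (h : WGe u v) : Relation.ReflTransGen WCov u v := by
  have key : ∀ (N : ℕ) (u v : WD n), WGe u v →
      dotZ (v.actZ (rhoZ n)) (rhoZ n) - dotZ (u.actZ (rhoZ n)) (rhoZ n) ≤ N →
      Relation.ReflTransGen WCov u v := by
    intro N
    induction N using Nat.strong_induction_on with
    | _ N ih =>
      intro u v huv hN
      -- splitting at a strictly intermediate element
      have split : ∀ z, WGe u z → WGe z v → z ≠ u → z ≠ v → Relation.ReflTransGen WCov u v := by
        intro z h1 h2 n1 n2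
        have p1 := (wge_potential h1).resolve_left (fun e => n1 e.symm)
        have p2 := (wge_potential h2).resolve_left n2
        have a1 := ih (dotZ (z.actZ (rhoZ n)) (rhoZ n) - dotZ (u.actZ (rhoZ n)) (rhoZ n)).toNat
          (by omega) u z h1 (by omega)
        have a2 := ih (dotZ (v.actZ (rhoZ n)) (rhoZ n) - dotZ (z.actZ (rhoZ n)) (rhoZ n)).toNat
          (by omega) z v h2 (by omega)
        exact a1.trans a2
      rcases Relation.ReflTransGen.cases_head huv with e | ⟨w, huw, hwv⟩
      · rw [e]
      · have nuw : w ≠ u := by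
          intro e
          have := wdown_potential huw
          rw [e] at this
          omega
        by_cases hwv' : w = v
        · subst hwv'
          by_cases hc : ∀ z, WGe u z → WGe z w → z = u ∨ z = w
          · exact Relation.ReflTransGen.single ⟨huw, hc⟩
          · push Not at hc
            obtain ⟨z, h1, h2, n1, n2⟩ := hc
            exact split z h1 h2 n1 n2
        · exact split w (Relation.ReflTransGen.single huw) hwv nuw hwv'
  exact key _ u v h (Int.self_le_toNat _)

theorem rmul_ne_self (α : RootD n) (u : WD n) : WD.rmul α u ≠ u := by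
  intro e
  have := aneg_rmul α u
  rw [e] at this
  tauto

theorem rmul_injective (α : RootD n) {u v : WD n} (h : WD.rmul α u = WD.rmul α v) : u = v := by
  rw [← rmul_rmul α u, h, rmul_rmul]

/-- (B5) Z-PROPERTY.  [B2a: `u = amax u ≥ amax v = s_α v > v`; cover ⇒ `s_α v = u`] -/
theorem wcov_Z {α : RootD n} (hα : IsSimpleR α) {u v : WD n} (h : WCov u v) (hu : ANeg α u)
    (hv : ¬ ANeg α v) : v = WD.rmul α u := by
  have h1 := wge_amax hα (Relation.ReflTransGen.single h.1)
  rw [amax_of_neg hu, amax_of_pos hv] at h1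
  have h2 : WGe (WD.rmul α v) v := Relation.ReflTransGen.single (wdown_simple_step' hα hv)
  rcases h.2 _ h1 h2 with e | e
  · rw [← e, rmul_rmul]
  · exact absurd e (rmul_ne_self α v)

/-- (B6) the `s_α`-translate of a cover between elements of equal `α`-sign is a cover. -/
theorem wcov_translate {α : RootD n} (hα : IsSimpleR α) {u v : WD n} (h : WCov u v)
    (hs : ANeg α u ↔ ANeg α v) : WCov (WD.rmul α u) (WD.rmul α v) := by
  have hdown : WDown (WD.rmul α u) (WD.rmul α v) := by
    rcases wdown_lift hα h.1 with e | e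
    · exfalso
      have := aneg_rmul α u
      rw [← e] at this
      tauto
    · exact e
  refine ⟨hdown, fun z hz1 hz2 => ?_⟩
  by_cases hu : ANeg α u
  · have hv : ANeg α v := hs.1 hu
    have nu : ¬ ANeg α (WD.rmul α u) := fun h' => (aneg_rmul α u).1 h' hu
    have nv : ¬ ANeg α (WD.rmul α v) := fun h' => (aneg_rmul α v).1 h' hv
    have a1 := wge_amax hα hz1
    have a2 := wge_amax hα hz2
    rw [amax_rmul, amax_of_neg hu] at a1
    rw [amax_rmul, amax_of_neg hv] at a2
    by_cases hz : ANeg α z
    · exfalso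
      rw [amax_of_neg hz] at a1 a2
      rcases h.2 z a1 a2 with e | e
      · subst e
        exact rmul_ne_self α z
          (wge_antisymm hz1 (Relation.ReflTransGen.single (wdown_simple_step hα hu)))
      · subst e
        rcases h.2 _ (Relation.ReflTransGen.single (wdown_simple_step hα hu)) hz1 with e | e
        · exact rmul_ne_self α u e
        · rw [e] at nu
          exact nu hv
    · rw [amax_of_pos hz] at a1 a2
      rcases h.2 _ a1 a2 with e | e
      · left
        rw [← e, rmul_rmul]
      · right
        rw [← e, rmul_rmul]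
  · have hv : ¬ ANeg α v := fun h' => hu (hs.2 h')
    have nu : ANeg α (WD.rmul α u) := (aneg_rmul α u).2 hu
    have nv : ANeg α (WD.rmul α v) := (aneg_rmul α v).2 hv
    have a1 := wge_amin hα hz1
    have a2 := wge_amin hα hz2
    rw [amin_rmul, amin_of_pos hu] at a1
    rw [amin_rmul, amin_of_pos hv] at a2
    by_cases hz : ANeg α z
    · rw [amin_of_neg hz] at a1 a2
      rcases h.2 _ a1 a2 with e | e
      · left
        rw [← e, rmul_rmul]
      · right
        rw [← e, rmul_rmul]
    · exfalso
      rw [amin_of_pos hz] at a1 a2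
      rcases h.2 z a1 a2 with e | e
      · subst e
        rcases h.2 _ hz2 (Relation.ReflTransGen.single (wdown_simple_step' hα hv)) with e | e
        · rw [e] at nv
          exact hu nv
        · exact rmul_ne_self α v e
      · subst e
        exact rmul_ne_self α z
          (wge_antisymm (Relation.ReflTransGen.single (wdown_simple_step' hα hv)) hz2)

/-- (B7) a simple step is a cover.  [`u ≥ z ≥ s_α u` ⇒ `amin z = s_α u` by B2b, B3b] -/
theorem wcov_simple {α : RootD n} (hα : IsSimpleR α) {u : WD n} (hu : ANeg α u) :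
    WCov u (WD.rmul α u) := by
  refine ⟨wdown_simple_step hα hu, fun z h1 h2 => ?_⟩
  have a1 := wge_amin hα h1
  have a2 := wge_amin hα h2
  rw [amin_of_neg hu] at a1
  rw [amin_rmul, amin_of_neg hu] at a2
  have e := wge_antisymm a2 a1
  by_cases hz : ANeg α z
  · rw [amin_of_neg hz] at e
    exact Or.inl (rmul_injective α e)
  · rw [amin_of_pos hz] at e
    exact Or.inr e

/-- (B8a) the identity is minimal -/
theorem wge_one {v : WD n} (h : WGe 1 v) : v = 1 := by
  rcases Relation.ReflTransGen.cases_head h with e | ⟨w, ⟨β, hβ, hneg, _⟩, _⟩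
  · exact e.symm
  · exfalso
    rw [actZ_one, dotZ_comm] at hneg
    have : 0 < dotZ β.vecZ (rhoZ n) := hβ
    omega

/-- (B8b) -/
theorem eq_one_of_dom {d : Fin n → ℤ} (hd : Ty.D.Reg (castV d)) {u : WD n}
    (h : DomZ (u.actZ d)) : u = 1 := by
  have h1 := regZ_of_reg hd
  have hne : ∀ γ : RootD n, dotZ (u.actZ d) γ.vecZ ≠ 0 := by
    intro γ
    obtain ⟨γ', hγ'⟩ := exists_root_actZ u⁻¹ γ
    rw [dotZ_actZ_left, ← hγ']
    exact regZ_ne h1 γ'
  refine regZ_free h1 (x' := u.actZ d) ?_ rfl
  intro i j hij
  have a1 := h i j hij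
  have a2 := hne ⟨i, j, hij.ne, false, true⟩
  have a3 := hne ⟨i, j, hij.ne, false, false⟩
  rw [dotZ_vecZ] at a2 a3
  simp only [sgnZ] at a2 a3
  rw [abs_le] at a1
  rw [abs_lt]
  simp at a2 a3
  constructor <;> omega

theorem pm_dot_vec (x : Vec n) (β : RootD n) :
    dot x β.vec = sgnB β.si * x β.i + sgnB β.sj * x β.j := by
  unfold dot RootD.vec
  simp only [mul_add, mul_ite, mul_zero, Finset.sum_add_distrib, Finset.sum_ite_eq',
    Finset.mem_univ, if_true]
  ring

theorem pm_sgnB_xor (a b : Bool) : sgnB (xor a b) = sgnB a * sgnB b := by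
  cases a <;> cases b <;> simp [sgnB]

/-- real version of (W1c) -/
theorem pm_act_rmul (β : RootD n) (u : WD n) (x : Vec n) :
    (WD.rmul β u).act x = refl β (u.act x) := by
  funext k
  show sgnB (xor (decide (β.si = β.sj) && (decide (k = β.i) || decide (k = β.j)))
      (u.s (Equiv.swap β.i β.j k))) * x (u.σ.symm ((Equiv.swap β.i β.j).symm k))
    = u.act x k - dot (u.act x) β.vec * β.vec k
  rw [pm_dot_vec, pm_sgnB_xor, Equiv.symm_swap, mul_assoc]
  change _ * (u.act x (Equiv.swap β.i β.j k)) = _
  generalize u.act x = y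
  have hne := β.ne
  by_cases h1 : k = β.i
  · subst h1
    rw [Equiv.swap_apply_left]
    have : β.vec β.i = sgnB β.si := by simp [RootD.vec, hne]
    rw [this]
    rcases β.si with _ | _ <;> rcases β.sj with _ | _ <;> simp [sgnB]
  · by_cases h2 : k = β.j
    · subst h2
      rw [Equiv.swap_apply_right]
      have : β.vec β.j = sgnB β.sj := by simp [RootD.vec, hne.symm]
      rw [this]
      rcases β.si with _ | _ <;> rcases β.sj with _ | _ <;> simp [sgnB]
    · rw [Equiv.swap_apply_of_ne_of_ne h1 h2]
      simp [RootD.vec, h1, h2, sgnB]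

theorem castV_injective {x y : Fin n → ℤ} (h : castV x = castV y) : x = y := by
  funext i
  have := congrFun h i
  simp only [castV] at this
  exact_mod_cast this

theorem pm_act_injective {u v : WD n} (h : u.act = v.act) : u = v := by
  apply actZ_injective
  intro x
  apply castV_injective
  rw [castV_actZ, castV_actZ, h]

theorem pos_iff_posZ (β : RootD n) : β.Pos ↔ β.PosZ := by
  unfold RootD.Pos RootD.PosZ
  rw [← castV_vecZ, ← castV_rhoZ, dot_castV]
  exact Int.cast_pos

theorem pm_dot_rho_neg_iff (u : WD n) (β : RootD n) :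
    dot (u.act (rhoV n)) β.vec < 0 ↔ dotZ (u.actZ (rhoZ n)) β.vecZ < 0 := by
  rw [← castV_vecZ, ← castV_rhoZ, ← castV_actZ, dot_castV]
  exact Int.cast_lt_zero

theorem down_iff_wdown (u : WD n) (g : Vec n → Vec n) :
    Down Ty.D u.act g ↔ ∃ v : WD n, g = v.act ∧ WDown u v := by
  constructor
  · rintro ⟨β, -, h1, h2, h3⟩
    refine ⟨WD.rmul β u, ?_, β, (pos_iff_posZ β).1 h1, (pm_dot_rho_neg_iff u β).1 h2, rfl⟩
    rw [h3]
    funext x
    rw [pm_act_rmul]
  · rintro ⟨v, rfl, β, h1, h2, rfl⟩
    refine ⟨β, trivial, (pos_iff_posZ β).2 h1, (pm_dot_rho_neg_iff u β).2 h2, ?_⟩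
    funext x
    rw [pm_act_rmul]

/-- (B9) dictionary with the order on real frames of `S2AB/Defs` -/
theorem bge_iff_wge (u v : WD n) : BGe Ty.D u.act v.act ↔ WGe u v := by
  constructor
  · intro h
    have key : ∀ g : Vec n → Vec n, BGe Ty.D u.act g → ∃ w : WD n, g = w.act ∧ WGe u w := by
      intro g hg
      induction hg with
      | refl => exact ⟨u, rfl, Relation.ReflTransGen.refl⟩
      | @tail a b _ hab ih =>
        obtain ⟨w, rfl, hw⟩ := ih
        obtain ⟨w', rfl, hw'⟩ := (down_iff_wdown w b).1 hab
        exact ⟨w', rfl, hw.tail hw'⟩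
    obtain ⟨w, e, hw⟩ := key _ h
    rw [pm_act_injective e]
    exact hw
  · intro h
    induction h with
    | refl => exact Relation.ReflTransGen.refl
    | @tail a b _ hab ih =>
      exact ih.tail ((down_iff_wdown a b.act).2 ⟨b, rfl, hab⟩)

end Claimed.Agent.R282
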