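import Claimed.Agent.R282.S2AB.PM.Oper

/-!
# Package PM, layers AL, S, I, C: strings, Weyl invariance, Littelmann's involution, PM-0 and PM-1
-/

set_option autoImplicit false

namespace Claimed.Agent.R282

/-! ## AL: abstract strings -/

section AL
variable {X : Type*}

/-- move along the string to the position `ε' = φ + c` -/
def strInv (e f : X → X) (eps phi : X → ℕ) (c : ℕ) (x : X) : X :=
  if eps x ≤ phi x + c then f^[phi x + c - eps x] x else e^[eps x - (phi x + c)] x

/-- the laws of a string structure on the elements satisfying `P` -/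
structure IsStr (P : X → Prop) (e f : X → X) (eps phi : X → ℕ) : Prop where
  fP : ∀ x, P x → P (f x)
  eP : ∀ x, P x → P (e x)
  f_spec : ∀ x, P x → 1 ≤ phi x → eps (f x) = eps x + 1 ∧ phi (f x) + 1 = phi x ∧ e (f x) = x
  e_spec : ∀ x, P x → 1 ≤ eps x → eps (e x) + 1 = eps x ∧ phi (e x) = phi x + 1 ∧ f (e x) = x

variable {P : X → Prop} {e f : X → X} {eps phi : X → ℕ}

theorem IsStr.iter_f (h : IsStr P e f eps phi) (x : X) (hx : P x) (k : ℕ) (hk : k ≤ phi x) :
    P (f^[k] x) ∧ eps (f^[k] x) = eps x + k ∧ phi (f^[k] x) + k = phi x ∧ e^[k] (f^[k] x) = x := by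
  induction k with
  | zero => simp [hx]
  | succ k ih =>
    obtain ⟨h1, h2, h3, h4⟩ := ih (by omega)
    obtain ⟨g1, g2, g3⟩ := h.f_spec _ h1 (by omega)
    rw [Function.iterate_succ_apply']
    refine ⟨h.fP _ h1, by omega, by omega, ?_⟩
    rw [Function.iterate_succ_apply, g3, h4]

theorem IsStr.iter_e (h : IsStr P e f eps phi) (x : X) (hx : P x) (k : ℕ) (hk : k ≤ eps x) :
    P (e^[k] x) ∧ eps (e^[k] x) + k = eps x ∧ phi (e^[k] x) = phi x + k ∧ f^[k] (e^[k] x) = x := by
  induction k with
  | zero => simp [hx]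
  | succ k ih =>
    obtain ⟨h1, h2, h3, h4⟩ := ih (by omega)
    obtain ⟨g1, g2, g3⟩ := h.e_spec _ h1 (by omega)
    rw [Function.iterate_succ_apply']
    refine ⟨h.eP _ h1, by omega, by omega, ?_⟩
    rw [Function.iterate_succ_apply, g3, h4]

/-- (AL1) -/
theorem strInv_spec (h : IsStr P e f eps phi) (c : ℕ) (x : X) (hx : P x) (hc : c ≤ eps x) :
    P (strInv e f eps phi c x) ∧ eps (strInv e f eps phi c x) = phi x + c ∧
      phi (strInv e f eps phi c x) + c = eps x ∧
      strInv e f eps phi c (strInv e f eps phi c x) = x := by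
  by_cases hc1 : eps x ≤ phi x + c
  · obtain ⟨h1, h2, h3, h4⟩ := h.iter_f x hx (phi x + c - eps x) (by omega)
    have e1 : strInv e f eps phi c x = f^[phi x + c - eps x] x := if_pos hc1
    rw [e1]
    refine ⟨h1, by omega, by omega, ?_⟩
    by_cases hc2 : phi x + c ≤ eps x
    · have hk : phi x + c - eps x = 0 := by omega
      rw [hk] at h2 h3 ⊢
      simp only [Function.iterate_zero, id_eq] at h2 h3 ⊢
      rw [e1, hk]
      rfl
    · unfold strInv
      rw [if_neg (by omega)]
      have : eps (f^[phi x + c - eps x] x) - (phi (f^[phi x + c - eps x] x) + c)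
          = phi x + c - eps x := by omega
      rw [this, h4]
  · obtain ⟨h1, h2, h3, h4⟩ := h.iter_e x hx (eps x - (phi x + c)) (by omega)
    have e1 : strInv e f eps phi c x = e^[eps x - (phi x + c)] x := if_neg hc1
    rw [e1]
    refine ⟨h1, by omega, by omega, ?_⟩
    unfold strInv
    rw [if_pos (by omega)]
    have : phi (e^[eps x - (phi x + c)] x) + c - eps (e^[eps x - (phi x + c)] x)
        = eps x - (phi x + c) := by omega
    rw [this, h4]

/-- (AL2) a property preserved by `f` on `{ε ≥ c, φ ≥ 1}` and by `e` on `{ε ≥ c + 1}` is preserved. -/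
theorem strInv_invariant (h : IsStr P e f eps phi) (c : ℕ) (Q : X → Prop)
    (hf : ∀ y, P y → Q y → c ≤ eps y → 1 ≤ phi y → Q (f y))
    (he : ∀ y, P y → Q y → c + 1 ≤ eps y → Q (e y)) (x : X) (hx : P x) (hc : c ≤ eps x)
    (hQ : Q x) : Q (strInv e f eps phi c x) := by
  by_cases hc1 : eps x ≤ phi x + c
  · have e1 : strInv e f eps phi c x = f^[phi x + c - eps x] x := if_pos hc1
    rw [e1]
    have key : ∀ k, k ≤ phi x → Q (f^[k] x) := by
      intro k
      induction k with
      | zero => intro _; exact hQ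
      | succ k ih =>
        intro hk
        obtain ⟨h1, h2, h3, _⟩ := h.iter_f x hx k (by omega)
        rw [Function.iterate_succ_apply']
        exact hf _ h1 (ih (by omega)) (by omega) (by omega)
    exact key _ (by omega)
  · have e1 : strInv e f eps phi c x = e^[eps x - (phi x + c)] x := if_neg hc1
    rw [e1]
    have key : ∀ k, k + c ≤ eps x → Q (e^[k] x) := by
      intro k
      induction k with
      | zero => intro _; exact hQ
      | succ k ih =>
        intro hk
        obtain ⟨h1, h2, h3, _⟩ := h.iter_e x hx k (by omega)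
        rw [Function.iterate_succ_apply']
        exact he _ h1 (ih (by omega)) (by omega)
    exact key _ (by omega)

/-- (AL3) weights -/
theorem strInv_weight (h : IsStr P e f eps phi) (c : ℕ) {A : Type*} [AddCommGroup A] (wt : X → A)
    (a : A) (hf : ∀ y, P y → 1 ≤ phi y → wt (f y) = wt y - a)
    (he : ∀ y, P y → 1 ≤ eps y → wt (e y) = wt y + a) (x : X) (hx : P x) (hc : c ≤ eps x) :
    wt (strInv e f eps phi c x) = wt x - ((phi x : ℤ) + c - eps x) • a := by
  by_cases hc1 : eps x ≤ phi x + c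
  · have e1 : strInv e f eps phi c x = f^[phi x + c - eps x] x := if_pos hc1
    rw [e1]
    have key : ∀ k, k ≤ phi x → wt (f^[k] x) = wt x - (k : ℤ) • a := by
      intro k
      induction k with
      | zero => intro _; simp
      | succ k ih =>
        intro hk
        obtain ⟨h1, h2, h3, _⟩ := h.iter_f x hx k (by omega)
        rw [Function.iterate_succ_apply', hf _ h1 (by omega), ih (by omega)]
        push_cast
        rw [add_smul, one_smul]
        abel
    rw [key _ (by omega)]
    congr 2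
    omega
  · have e1 : strInv e f eps phi c x = e^[eps x - (phi x + c)] x := if_neg hc1
    rw [e1]
    have key : ∀ k, k ≤ eps x → wt (e^[k] x) = wt x + (k : ℤ) • a := by
      intro k
      induction k with
      | zero => intro _; simp
      | succ k ih =>
        intro hk
        obtain ⟨h1, h2, h3, _⟩ := h.iter_e x hx k (by omega)
        rw [Function.iterate_succ_apply', he _ h1 (by omega), ih (by omega)]
        push_cast
        rw [add_smul, one_smul]
        abel
    rw [key _ (by omega), sub_eq_add_neg, ← neg_smul]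
    congr 2
    omega

end AL

variable {n : ℕ} {θ : List (Fin n → ℤ)} {L : ℕ}

section
variable (hθ : ∀ v ∈ θ, Ty.D.Reg (castV v)) (hL : GoodMod θ L)
include hθ hL

omit hθ hL in
theorem reflZ_reflZ (α : RootD n) (x : Fin n → ℤ) : reflZ α (reflZ α x) = x := by
  simp only [reflZ, dotZ_sub_left, dotZ_smul_left, dotZ_vecZ_self]
  funext k
  simp only [Pi.sub_apply, Pi.smul_apply, smul_eq_mul]
  ring

/-- (S0) glue: CR1-CR3 -/
theorem ls_isStr {α : RootD n} (hα : IsSimpleR α) :
    IsStr (IsLS θ L) (eOp α) (fOp α) (epsN α) (phiN α) :=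
  { fP := fun _ hu => fOp_isLS hθ hL hα hu
    eP := fun _ hu => eOp_isLS hθ hL hα hu
    f_spec := fun _ hu h => by
      obtain ⟨h1, h2, h3, _⟩ := fOp_spec hθ hL hα hu h
      exact ⟨h1, h2, h3⟩
    e_spec := fun _ hu h => by
      obtain ⟨h1, h2, h3, _⟩ := eOp_spec hθ hL hα hu h
      exact ⟨h1, h2, h3⟩ }

/-! ## S: Weyl invariance of the counts -/

/-- endpoint of `strInv … c u` -/
theorem strInv_endsAt {α : RootD n} (hα : IsSimpleR α) {u : Word n θ L} (hu : IsLS θ L u) (c : ℕ)
    (hc : c ≤ epsN α u) {χ : Fin n → ℤ} (he : EndsAt θ L u χ) :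
    EndsAt θ L (strInv (eOp α) (fOp α) (epsN α) (phiN α) c u)
      (χ - (dotZ χ α.vecZ + c) • α.vecZ) := by
  have hLpos : (0 : ℤ) < L := by
    have := hL.1
    positivity
  have h1 := strInv_weight (ls_isStr hθ hL hα) c (fun y => vtx θ L y (θ.length * L))
    ((L : ℤ) • α.vecZ) (fun y hy h => (fOp_spec hθ hL hα hy h).2.2.2)
    (fun y hy h => (eOp_spec hθ hL hα hy h).2.2.2) u hu hc
  obtain ⟨_, s2⟩ := eps_phi_spec hθ hL hα hu
  have e1 : hgt α u (θ.length * L) = (L : ℤ) * dotZ χ α.vecZ := by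
    unfold hgt
    rw [he, dotZ_smul_left]
  have e2 : (phiN α u : ℤ) - epsN α u = dotZ χ α.vecZ := by
    have : (L : ℤ) * ((phiN α u : ℤ) - epsN α u) = (L : ℤ) * dotZ χ α.vecZ := by
      rw [← e1, s2]
      ring
    exact mul_left_cancel₀ hLpos.ne' this
  unfold EndsAt
  rw [h1, he, show (phiN α u : ℤ) + c - epsN α u = dotZ χ α.vecZ + c by omega, smul_sub,
    smul_comm]

/-- (S1) the string reflection `σ_α = strInv … 0` maps `EndsAt χ` to `EndsAt (s_α χ)`.
[AL1, AL3 with `wt = vtx … m`, `a = L • α`, CR0: `φ - ε = <χ, α>`] -/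
theorem sigma_endsAt {α : RootD n} (hα : IsSimpleR α) {u : Word n θ L} (hu : IsLS θ L u)
    {χ : Fin n → ℤ} (he : EndsAt θ L u χ) :
    EndsAt θ L (strInv (eOp α) (fOp α) (epsN α) (phiN α) 0 u) (reflZ α χ) := by
  have := strInv_endsAt hθ hL hα hu 0 (Nat.zero_le _) he
  simpa [reflZ] using this

/-- (S2) [bijection `σ_α`, `Nat.card_congr`] -/
theorem lsCount_refl {α : RootD n} (hα : IsSimpleR α) (χ : Fin n → ℤ) :
    lsCount θ L (reflZ α χ) = lsCount θ L χ := by
  unfold lsCount
  congr 1
  have hS := ls_isStr hθ hL hα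
  refine Nat.card_congr
    { toFun := fun u => ⟨strInv (eOp α) (fOp α) (epsN α) (phiN α) 0 u.1,
        (strInv_spec hS 0 u.1 u.2.1 (Nat.zero_le _)).1, by
          have := sigma_endsAt hθ hL hα u.2.1 u.2.2
          rwa [reflZ_reflZ] at this⟩
      invFun := fun u => ⟨strInv (eOp α) (fOp α) (epsN α) (phiN α) 0 u.1,
        (strInv_spec hS 0 u.1 u.2.1 (Nat.zero_le _)).1, sigma_endsAt hθ hL hα u.2.1 u.2.2⟩
      left_inv := fun u => Subtype.ext (strInv_spec hS 0 u.1 u.2.1 (Nat.zero_le _)).2.2.2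
      right_inv := fun u => Subtype.ext (strInv_spec hS 0 u.1 u.2.1 (Nat.zero_le _)).2.2.2 }

/-- (S3) glue: W8, W1c -/
theorem lsCount_actZ (w : WD n) (χ : Fin n → ℤ) : lsCount θ L (w.actZ χ) = lsCount θ L χ := by
  revert χ
  refine WD.induction_simple (P := fun w => ∀ χ, lsCount θ L (w.actZ χ) = lsCount θ L χ) ?_ ?_ w
  · intro χ
    rw [actZ_one]
  · intro α u hα ih χ
    rw [actZ_rmul, lsCount_refl hθ hL hα, ih]

end

/-! ## I: the involution -/

/-- `L (lam + ρ) + x_k` lies in the open chamber -/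
def GoodAt (lam : Fin n → ℤ) (u : Word n θ L) (k : ℕ) : Prop :=
  ∀ β : RootD n, IsSimpleR β → 0 < (L : ℤ) * dotZ (lam + rhoZ n) β.vecZ + hgt β u k

/-- the simple roots violated at vertex `k` -/
def badSet (lam : Fin n → ℤ) (u : Word n θ L) (k : ℕ) : Set (RootD n) :=
  {β | IsSimpleR β ∧ (L : ℤ) * dotZ (lam + rhoZ n) β.vecZ + hgt β u k ≤ 0}

open Classical in
/-- first bad vertex (junk value `0` if there is none) -/
noncomputable def firstBad (lam : Fin n → ℤ) (u : Word n θ L) : ℕ :=
  if h : ∃ k, ¬ GoodAt lam u k then Nat.find h else 0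

open Classical in
/-- Littelmann's involution -/
noncomputable def iotaOp (lam : Fin n → ℤ) (u : Word n θ L) : Word n θ L :=
  if h : (badSet lam u (firstBad lam u)).Nonempty then
    strInv (eOp h.some) (fOp h.some) (epsN h.some) (phiN h.some)
      (dotZ (lam + rhoZ n) h.some.vecZ).toNat u
  else u

section
variable (hθ : ∀ v ∈ θ, Ty.D.Reg (castV v)) (hL : GoodMod θ L) {lam : Fin n → ℤ} (hl : DomZ lam)
  {u : Word n θ L} (hu : IsLS θ L u)
include hθ hL hl hu

omit hθ hL hl hu in
theorem not_goodAt_of_badSet {α : RootD n} {k : ℕ} (hα : α ∈ badSet lam u k) :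
    ¬ GoodAt lam u k := by
  intro h
  have := h α hα.1
  have := hα.2
  omega

omit hθ hL hl hu in
theorem firstBad_eq {K : ℕ} (h1 : ¬ GoodAt lam u K) (h2 : ∀ k, k < K → GoodAt lam u k) :
    firstBad lam u = K := by
  classical
  have h : ∃ k, ¬ GoodAt lam u k := ⟨K, h1⟩
  unfold firstBad
  rw [dif_pos h]
  apply le_antisymm
  · exact Nat.find_min' h h1
  · by_contra hcon
    exact Nat.find_spec h (h2 _ (by omega))

omit hθ hL hl hu in
theorem firstBad_spec (h : ∃ k, ¬ GoodAt lam u k) :
    ¬ GoodAt lam u (firstBad lam u) ∧ ∀ k, k < firstBad lam u → GoodAt lam u k := by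
  classical
  unfold firstBad
  rw [dif_pos h]
  refine ⟨Nat.find_spec h, fun k hk => ?_⟩
  by_contra hcon
  exact Nat.find_min h hk hcon

omit hθ hL hl hu in
/-- words with the same vertices up to `K` have the same first bad vertex `K` and bad set -/
theorem bad_congr {u' : Word n θ L} {K : ℕ} (hv : ∀ k, k ≤ K → vtx θ L u' k = vtx θ L u k)
    (h1 : ¬ GoodAt lam u K) (h2 : ∀ k, k < K → GoodAt lam u k) :
    firstBad lam u' = K ∧ badSet lam u' K = badSet lam u K := by
  have hg : ∀ k, k ≤ K → (GoodAt lam u' k ↔ GoodAt lam u k) := by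
    intro k hk
    unfold GoodAt hgt
    rw [hv k hk]
  refine ⟨firstBad_eq (fun h => h1 ((hg K le_rfl).1 h)) (fun k hk => (hg k hk.le).2 (h2 k hk)), ?_⟩
  unfold badSet hgt
  rw [hv K le_rfl]

/-- (I1) [W9a, W9b, H2: the minimum of the height is a multiple of `L`] -/
theorem lamDom_iff_good : LamDom lam θ L u ↔ ∀ k, GoodAt lam u k := by
  have hLpos : (0 : ℤ) < L := by
    have := hL.1
    positivity
  constructor
  · intro h k β hβ
    have h1 := (domZ_iff_simple _).1 (h k) β hβ
    rw [dotZ_add_left, dotZ_smul_left] at h1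
    rw [dotZ_add_left, dotZ_rho_simple hβ]
    unfold hgt
    linarith
  · intro h k
    rw [domZ_iff_simple]
    intro β hβ
    obtain ⟨k', _, ek'⟩ := exists_hmin β u
    have h1 := h k' β hβ
    rw [ek', dotZ_add_left, dotZ_rho_simple hβ] at h1
    have h2 : (L : ℤ) ∣ (L : ℤ) * (dotZ lam β.vecZ + 1) + hmin β u :=
      dvd_add (Dvd.intro _ rfl) (hmin_dvd hθ hL hβ hu)
    have h3 := add_le_of_dvd_lt (dvd_zero (L : ℤ)) h2 h1
    have h4 := hmin_le β u k
    rw [dotZ_add_left, dotZ_smul_left]
    unfold hgt at h4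
    linarith

/-- (I2a) for a bad word, with `α` in the bad set at the first bad vertex: `c_α ≤ ε_α(u)`, and a step
of the `α`-string inside `{ε ≥ c_α}` changes neither the first bad vertex nor the bad set there.
[CR5e, CR5f, `vtx_congr_below`] -/
theorem bad_step {α : RootD n} (hα : α ∈ badSet lam u (firstBad lam u)) :
    (dotZ (lam + rhoZ n) α.vecZ).toNat ≤ epsN α u ∧
    (1 ≤ phiN α u → firstBad lam (fOp α u) = firstBad lam u ∧
      badSet lam (fOp α u) (firstBad lam u) = badSet lam u (firstBad lam u)) ∧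
    ((dotZ (lam + rhoZ n) α.vecZ).toNat + 1 ≤ epsN α u →
      firstBad lam (eOp α u) = firstBad lam u ∧
      badSet lam (eOp α u) (firstBad lam u) = badSet lam u (firstBad lam u)) := by
  have hLpos : (0 : ℤ) < L := by
    have := hL.1
    positivity
  have hbadK := not_goodAt_of_badSet hα
  obtain ⟨_, hgood⟩ := firstBad_spec ⟨_, hbadK⟩
  obtain ⟨hαs, hα2⟩ := hα
  obtain ⟨s1, _⟩ := eps_phi_spec hθ hL hαs hu
  have hc1 : 1 ≤ dotZ (lam + rhoZ n) α.vecZ := by
    rw [dotZ_add_left, dotZ_rho_simple hαs]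
    have := domZ_pos_nonneg hl hαs.1
    omega
  have hc : ((dotZ (lam + rhoZ n) α.vecZ).toNat : ℤ) = dotZ (lam + rhoZ n) α.vecZ :=
    Int.toNat_of_nonneg (by omega)
  generalize (dotZ (lam + rhoZ n) α.vecZ).toNat = c at hc
  rw [← hc] at hα2
  have hgood' : ∀ k, k < firstBad lam u → -((L : ℤ) * c) < hgt α u k := by
    intro k hk
    have := hgood k hk α hαs
    rw [← hc] at this
    omega
  have hce : (c : ℤ) ≤ epsN α u := by
    have h1 := hmin_le α u (firstBad lam u)
    rw [s1] at h1
    have : (L : ℤ) * c ≤ (L : ℤ) * epsN α u := by omega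
    exact le_of_mul_le_mul_left this hLpos
  have hLce : (L : ℤ) * c ≤ (L : ℤ) * epsN α u := mul_le_mul_of_nonneg_left hce hLpos.le
  refine ⟨by exact_mod_cast hce, fun _ => ?_, fun hce' => ?_⟩
  · refine bad_congr (fun k hk => vtx_congr_below u (fOp α u) (firstBad lam u) (fun i hi =>
      fOp_agree hθ hL hαs hu (firstBad lam u) (fun k hk => ?_) i hi) k hk) hbadK hgood
    have := hgood' k hk
    rw [s1]
    omega
  · refine bad_congr (fun k hk => vtx_congr_below u (eOp α u) (firstBad lam u) (fun i hi =>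
      eOp_agree hθ hL hαs hu (firstBad lam u) (fun k hk => ?_) i hi) k hk) hbadK hgood
    have := hgood' k hk
    rw [s1]
    have hce2 : (c : ℤ) + 1 ≤ epsN α u := by exact_mod_cast hce'
    have : (L : ℤ) * (c + 1) ≤ (L : ℤ) * epsN α u := mul_le_mul_of_nonneg_left hce2 hLpos.le
    rw [mul_add, mul_one] at this
    omega

omit hθ hL hl hu in
theorem iotaOp_eq {S : Set (RootD n)} (hS : badSet lam u (firstBad lam u) = S) (h : S.Nonempty) :
    iotaOp lam u = strInv (eOp h.some) (fOp h.some) (epsN h.some) (phiN h.some)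
      (dotZ (lam + rhoZ n) h.some.vecZ).toNat u := by
  subst hS
  unfold iotaOp
  rw [dif_pos h]

omit hθ hL hl hu in
theorem badSet_nonempty (hbad : ¬ ∀ k, GoodAt lam u k) :
    (badSet lam u (firstBad lam u)).Nonempty := by
  have h : ∃ k, ¬ GoodAt lam u k := by
    push Not at hbad
    exact hbad
  have h1 := (firstBad_spec h).1
  unfold GoodAt at h1
  push Not at h1
  obtain ⟨β, hβ, h2⟩ := h1
  exact ⟨β, hβ, h2⟩

/-- the invariant of the involution -/
theorem iota_invariant (hbad : ¬ ∀ k, GoodAt lam u k) :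
    firstBad lam (iotaOp lam u) = firstBad lam u ∧
      badSet lam (iotaOp lam u) (firstBad lam u) = badSet lam u (firstBad lam u) := by
  have hne := badSet_nonempty hbad
  rw [iotaOp_eq rfl hne]
  have hα := hne.some_mem
  generalize hne.some = α at hα
  have hS := ls_isStr hθ hL hα.1
  refine strInv_invariant hS _ (fun y => firstBad lam y = firstBad lam u ∧
    badSet lam y (firstBad lam u) = badSet lam u (firstBad lam u)) ?_ ?_ u hu
    (bad_step hθ hL hl hu hα).1 ⟨rfl, rfl⟩
  · intro y hy hQ _ hphi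
    have hαy : α ∈ badSet lam y (firstBad lam y) := by
      rw [hQ.1, hQ.2]
      exact hα
    have := (bad_step hθ hL hl hy hαy).2.1 hphi
    rw [hQ.1] at this
    exact ⟨this.1, this.2.trans hQ.2⟩
  · intro y hy hQ heps
    have hαy : α ∈ badSet lam y (firstBad lam y) := by
      rw [hQ.1, hQ.2]
      exact hα
    have := (bad_step hθ hL hl hy hαy).2.2 heps
    rw [hQ.1] at this
    exact ⟨this.1, this.2.trans hQ.2⟩

/-- (I2b) [AL1, AL2 with `Q y := firstBad lam y = K ∧ badSet lam y K = S` (`K`, `S` those of `u`), I2a;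
equal bad sets give the same chosen root] -/
theorem iota_spec (hbad : ¬ ∀ k, GoodAt lam u k) :
    IsLS θ L (iotaOp lam u) ∧ (¬ ∀ k, GoodAt lam (iotaOp lam u) k) ∧
      iotaOp lam (iotaOp lam u) = u := by
  have hne := badSet_nonempty hbad
  obtain ⟨i1, i2⟩ := iota_invariant hθ hL hl hu hbad
  have hS2 : badSet lam (iotaOp lam u) (firstBad lam (iotaOp lam u))
      = badSet lam u (firstBad lam u) := by
    rw [i1, i2]
  have e2 := iotaOp_eq hS2 hne
  have e1 := iotaOp_eq (u := u) rfl hne
  have hα := hne.some_mem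
  generalize hne.some = α at hα e1 e2
  have hS := ls_isStr hθ hL hα.1
  obtain ⟨a1, _, _, a4⟩ := strInv_spec hS _ u hu (bad_step hθ hL hl hu hα).1
  refine ⟨by rw [e1]; exact a1, ?_, ?_⟩
  · intro hgood
    have hα' : α ∈ badSet lam (iotaOp lam u) (firstBad lam u) := by
      rw [i2]
      exact hα
    exact not_goodAt_of_badSet hα' (hgood _)
  · rw [e2, e1]
    exact a4

/-- (I2c) [AL3, CR0] -/
theorem iota_endsAt (hbad : ¬ ∀ k, GoodAt lam u k) {χ : Fin n → ℤ} (he : EndsAt θ L u χ) :
    ∃ α : RootD n, ∃ χ' : Fin n → ℤ, EndsAt θ L (iotaOp lam u) χ' ∧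
      lam + rhoZ n + χ' = reflZ α (lam + rhoZ n + χ) := by
  have hne := badSet_nonempty hbad
  have e1 := iotaOp_eq (u := u) rfl hne
  have hα := hne.some_mem
  generalize hne.some = α at hα e1
  have h1 := strInv_endsAt hθ hL hα.1 hu _ (bad_step hθ hL hl hu hα).1 he
  have hc1 : 1 ≤ dotZ (lam + rhoZ n) α.vecZ := by
    rw [dotZ_add_left, dotZ_rho_simple hα.1]
    have := domZ_pos_nonneg hl hα.1.1
    omega
  have hc : ((dotZ (lam + rhoZ n) α.vecZ).toNat : ℤ) = dotZ (lam + rhoZ n) α.vecZ :=
    Int.toNat_of_nonneg (by omega)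
  rw [hc] at h1
  refine ⟨α, _, by rw [e1]; exact h1, ?_⟩
  simp only [reflZ, dotZ_add_left]
  funext i
  simp only [Pi.add_apply, Pi.sub_apply, Pi.smul_apply, smul_eq_mul]
  ring

end

theorem domZ_add {x y : Fin n → ℤ} (hx : DomZ x) (hy : DomZ y) : DomZ (x + y) := by
  intro i j hij
  have h1 := hx i j hij
  have h2 := hy i j hij
  simp only [Pi.add_apply]
  exact (abs_add_le _ _).trans (add_le_add h1 h2)

theorem domZ_of_reg {d : Fin n → ℤ} (hd : Ty.D.Reg (castV d)) : DomZ d :=
  fun i j hij => (regZ_of_reg hd i j hij).le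

theorem domZ_sum (θ : List (Fin n → ℤ)) (hθ : ∀ v ∈ θ, Ty.D.Reg (castV v)) : DomZ θ.sum := by
  induction θ with
  | nil =>
    intro i j _
    simp
  | cons a l ih =>
    rw [List.sum_cons]
    exact domZ_add (domZ_of_reg (hθ a (by simp))) (ih fun v hv => hθ v (by simp [hv]))

theorem domZ_zero : DomZ (0 : Fin n → ℤ) := by
  intro i j _
  simp

/-- the skew function `ψ(y) = ∑_w det w [w y = κ + ρ]` -/
noncomputable def psiW (κ y : Fin n → ℤ) : ℤ :=
  ∑ w : WD n, w.det * (if w.actZ y = κ + rhoZ n then 1 else 0)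

theorem det_one : (1 : WD n).det = 1 := by
  show ((Equiv.Perm.sign (1 : Equiv.Perm (Fin n)) : ℤˣ) : ℤ) = 1
  simp

theorem det_rmul_one (α : RootD n) : (WD.rmul α 1).det = -1 := by
  rw [det_rmul, det_one]

/-- (I3a) [reindex `w ↦ w s_α`, W7] -/
theorem psiW_refl (κ y : Fin n → ℤ) (α : RootD n) : psiW κ (reflZ α y) = - psiW κ y := by
  unfold psiW
  rw [← Equiv.sum_comp (Equiv.mulRight (WD.rmul α 1))
    (fun w : WD n => w.det * (if w.actZ y = κ + rhoZ n then 1 else 0)), ← Finset.sum_neg_distrib]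
  refine Finset.sum_congr rfl fun w _ => ?_
  simp only [Equiv.coe_mulRight, det_mul, det_rmul_one, actZ_mul, ← reflZ_eq_actZ]
  ring

/-- (I3b) [W6b] -/
theorem psiW_dom {κ κ' : Fin n → ℤ} (h : DomZ κ) (h' : DomZ κ') :
    psiW κ (κ' + rhoZ n) = if κ' = κ then 1 else 0 := by
  unfold psiW
  by_cases e : κ' = κ
  · subst e
    rw [if_pos rfl, Finset.sum_eq_single 1]
    · rw [actZ_one, if_pos rfl, det_one, mul_one]
    · intro w _ hw
      rw [if_neg, mul_zero]
      intro e
      exact hw (strict_dom_unique h' h' e).1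
    · intro h1
      exact absurd (Finset.mem_univ _) h1
  · rw [if_neg e]
    apply Finset.sum_eq_zero
    intro w _
    rw [if_neg, mul_zero]
    intro e2
    exact e (strict_dom_unique h' h e2).2

open Classical in
/-- endpoint of a word (junk `0` if the last vertex is not in `L ℤ^n`) -/
noncomputable def endOf (u : Word n θ L) : Fin n → ℤ :=
  if h : ∃ χ, EndsAt θ L u χ then h.choose else 0

section
variable (hθ : ∀ v ∈ θ, Ty.D.Reg (castV v)) (hL : GoodMod θ L)
include hθ hL

omit hθ in
theorem endsAt_iff_endOf {u : Word n θ L} (hu : IsLS θ L u) (χ : Fin n → ℤ) :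
    EndsAt θ L u χ ↔ endOf u = χ := by
  obtain ⟨χ0, h0, huniq⟩ := exists_endsAt hL hu
  have h : ∃ χ, EndsAt θ L u χ := ⟨χ0, h0⟩
  have e : endOf u = χ0 := by
    unfold endOf
    rw [dif_pos h]
    exact huniq _ h.choose_spec
  rw [e]
  constructor
  · intro h1
    exact (huniq _ h1).symm
  · rintro rfl
    exact h0

open Classical in
omit hθ in
theorem lsCount_eq_sum (χ : Fin n → ℤ) :
    lsCount θ L χ = ∑ u : Word n θ L, if IsLS θ L u then (if endOf u = χ then 1 else 0) else 0 := by
  unfold lsCount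
  rw [Nat.card_eq_fintype_card, Fintype.card_subtype, Finset.card_filter]
  push_cast
  refine Finset.sum_congr rfl fun u _ => ?_
  by_cases hu : IsLS θ L u
  · simp only [hu, true_and, if_true, endsAt_iff_endOf hL hu]
  · simp [hu]

open Classical in
/-- (I4) [W7a, S3, exchange of sums] -/
theorem altW_lsCount (lam κ : Fin n → ℤ) :
    altW (fun y => lsCount θ L (κ + rhoZ n - y)) (lam + rhoZ n) =
      ∑ u : Word n θ L, if IsLS θ L u then psiW κ (lam + rhoZ n + endOf u) else 0 := by
  rw [altW_eq_sum]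
  unfold psiW
  have e1 : ∀ u : Word n θ L,
      (if IsLS θ L u then
        ∑ w : WD n, w.det * (if w.actZ (lam + rhoZ n + endOf u) = κ + rhoZ n then 1 else 0) else 0)
      = ∑ w : WD n, w.det * (if IsLS θ L u then
          (if endOf u = w⁻¹.actZ (κ + rhoZ n - w.actZ (lam + rhoZ n)) then 1 else 0) else 0) := by
    intro u
    by_cases hu : IsLS θ L u
    · simp only [hu, if_true]
      refine Finset.sum_congr rfl fun w _ => ?_
      congr 1
      have : w.actZ (lam + rhoZ n + endOf u) = κ + rhoZ n ↔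
          endOf u = w⁻¹.actZ (κ + rhoZ n - w.actZ (lam + rhoZ n)) := by
        constructor
        · intro h
          rw [← h, actZ_add, add_sub_cancel_left, actZ_inv_actZ]
        · intro h
          rw [actZ_add, h, actZ_actZ_inv]
          abel
      simp only [this]
    · simp [hu]
  simp only [e1]
  rw [Finset.sum_comm]
  refine Finset.sum_congr rfl fun w _ => ?_
  rw [← Finset.mul_sum, ← lsCount_eq_sum hL, lsCount_actZ hθ hL]

omit hθ hL in
theorem domZ_of_smul {c : ℤ} (hc : 0 < c) {x : Fin n → ℤ} (h : DomZ (c • x)) : DomZ x := by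
  intro i j hij
  have := h i j hij
  simp only [Pi.smul_apply, smul_eq_mul, abs_mul, abs_of_pos hc] at this
  exact le_of_mul_le_mul_left this hc

open Classical in
/-- the bad LS words cancel -/
theorem sum_psiW_bad (lam κ : Fin n → ℤ) (hl : DomZ lam) :
    (∑ u ∈ (Finset.univ.filter fun u : Word n θ L => IsLS θ L u).filter
      (fun u => ¬ ∀ k, GoodAt lam u k), psiW κ (lam + rhoZ n + endOf u)) = 0 := by
  have hpair : ∀ u : Word n θ L, IsLS θ L u → (¬ ∀ k, GoodAt lam u k) →
      psiW κ (lam + rhoZ n + endOf u) + psiW κ (lam + rhoZ n + endOf (iotaOp lam u)) = 0 := by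
    intro u hu hbad
    obtain ⟨α, χ', h1, h2⟩ := iota_endsAt hθ hL hl hu hbad ((endsAt_iff_endOf hL hu _).2 rfl)
    have hu' := (iota_spec hθ hL hl hu hbad).1
    rw [(endsAt_iff_endOf hL hu' _).1 h1, h2, psiW_refl]
    ring
  refine Finset.sum_involution (fun u _ => iotaOp lam u) ?_ ?_ ?_ ?_
  · intro u hu
    simp only [Finset.mem_filter, Finset.mem_univ, true_and] at hu
    exact hpair u hu.1 hu.2
  · intro u hu hne e
    simp only [Finset.mem_filter, Finset.mem_univ, true_and] at hu
    have := hpair u hu.1 hu.2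
    rw [e] at this
    apply hne
    omega
  · intro u hu
    simp only [Finset.mem_filter, Finset.mem_univ, true_and] at hu ⊢
    have := iota_spec hθ hL hl hu.1 hu.2
    exact ⟨this.1, this.2.1⟩
  · intro u hu
    simp only [Finset.mem_filter, Finset.mem_univ, true_and] at hu
    exact (iota_spec hθ hL hl hu.1 hu.2).2.2

open Classical in
/-- (I5) [`Finset.sum_involution` with `iotaOp` on the bad LS words (I2b, I2c, I3a); on the good ones
`lam + endOf u` is dominant, I3b, I1] -/
theorem sum_psiW (lam κ : Fin n → ℤ) (hl : DomZ lam) (hk : DomZ κ) :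
    (∑ u : Word n θ L, if IsLS θ L u then psiW κ (lam + rhoZ n + endOf u) else 0) =
      (Nat.card {u : Word n θ L // IsLS θ L u ∧ LamDom lam θ L u ∧ EndsAt θ L u (κ - lam)} : ℤ) := by
  have hLpos : (0 : ℤ) < L := by
    have := hL.1
    positivity
  rw [← Finset.sum_filter, ← Finset.sum_filter_add_sum_filter_not _ (fun u => ∀ k, GoodAt lam u k),
    sum_psiW_bad hθ hL lam κ hl, add_zero, Nat.card_eq_fintype_card, Fintype.card_subtype,
    Finset.card_filter, Finset.sum_filter, Finset.sum_filter]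
  push_cast
  refine Finset.sum_congr rfl fun u _ => ?_
  by_cases hu : IsLS θ L u
  · have hI := lamDom_iff_good hθ hL hl hu
    by_cases hg : ∀ k, GoodAt lam u k
    · have hd := hI.2 hg
      have hend : EndsAt θ L u (endOf u) := (endsAt_iff_endOf hL hu _).2 rfl
      have hdom : DomZ (lam + endOf u) := by
        have := hd (θ.length * L)
        rw [hend, ← smul_add] at this
        exact domZ_of_smul hLpos this
      rw [if_pos hu, if_pos hg, add_right_comm, psiW_dom hk hdom]
      have : lam + endOf u = κ ↔ EndsAt θ L u (κ - lam) := by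
        rw [endsAt_iff_endOf hL hu]
        constructor
        · intro h
          rw [← h]
          abel
        · intro h
          rw [h]
          abel
      simp only [this, hu, hd, true_and]
    · have hd : ¬ LamDom lam θ L u := fun h => hg (hI.1 h)
      simp [hu, hg, hd]
  · simp [hu]

/-- **(PM-1)** Littelmann's rule. -/
theorem ls_klimyk (lam κ : Fin n → ℤ) (hl : DomZ lam) (hk : DomZ κ) :
    altW (fun y => lsCount θ L (κ + rhoZ n - y)) (lam + rhoZ n) =
      (Nat.card {u : Word n θ L // IsLS θ L u ∧ LamDom lam θ L u ∧ EndsAt θ L u (κ - lam)} : ℤ) := by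
  rw [altW_lsCount hθ hL, sum_psiW hθ hL lam κ hl hk]

/-! ## C: the character -/

omit hL in
theorem domZ_etaZ (k : ℕ) : DomZ (etaZ θ L k) := by
  induction k with
  | zero =>
    rw [etaZ_zero]
    exact domZ_zero
  | succ k ih =>
    rw [etaZ_succ]
    refine domZ_add ih ?_
    unfold pcs
    by_cases h : k / L < θ.length
    · rw [List.getD_eq_getElem _ _ h]
      exact domZ_of_reg (hθ _ (List.getElem_mem h))
    · rw [List.getD_eq_default _ _ (by omega)]
      exact domZ_zero

omit hθ hL in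
theorem vtx_one_word (k : ℕ) (hk : k ≤ θ.length * L) :
    vtx θ L (fun _ => (1 : WD n)) k = etaZ θ L k := by
  induction k with
  | zero => rw [vtx_zero, etaZ_zero]
  | succ k ih => rw [vtx_succ _ k (by omega), etaZ_succ, ih (by omega), actZ_one]

theorem dominant_word_eq_one {u : Word n θ L} (hu : IsLS θ L u) (hd : LamDom 0 θ L u) :
    u = fun _ => 1 := by
  have key : ∀ (k : ℕ) (hk : k < θ.length * L), u ⟨k, hk⟩ = 1 := by
    intro k
    induction k with
    | zero =>
      intro hk
      have h1 := hd 1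
      rw [vtx_succ u 0 hk, vtx_zero, smul_zero, zero_add, zero_add] at h1
      exact eq_one_of_dom (hθ _ (pcs_mem hL.1 0 hk)) h1
    | succ k ih =>
      intro hk
      have h1 := linked_wge (hu ⟨k, by omega⟩ ⟨k + 1, hk⟩ rfl)
      rw [ih (by omega)] at h1
      exact wge_one h1
  funext i
  exact key i.1 i.2

/-- (C1) the only dominant LS word is the constant word `1`, it ends at `θ.sum`.  [B8a, B8b, LK-W] -/
theorem card_dominant (κ : Fin n → ℤ) :
    (Nat.card {u : Word n θ L // IsLS θ L u ∧ LamDom 0 θ L u ∧ EndsAt θ L u (κ - 0)} : ℤ) =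
      if κ = θ.sum then 1 else 0 := by
  have hLpos : (0 : ℤ) < L := by
    have := hL.1
    positivity
  have hone : IsLS θ L (fun _ => (1 : WD n)) ∧ LamDom 0 θ L (fun _ => (1 : WD n)) ∧
      EndsAt θ L (fun _ => (1 : WD n)) θ.sum := by
    refine ⟨fun _ _ _ => Relation.ReflTransGen.refl, fun k => ?_, ?_⟩
    · rw [smul_zero, zero_add]
      by_cases hk : k ≤ θ.length * L
      · rw [vtx_one_word k hk]
        exact domZ_etaZ hθ k
      · rw [vtx_of_ge _ k (by omega), vtx_one_word _ le_rfl]
        exact domZ_etaZ hθ _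
    · unfold EndsAt
      rw [vtx_one_word _ le_rfl, etaZ_end]
  rw [sub_zero]
  by_cases e : κ = θ.sum
  · subst e
    rw [if_pos rfl]
    have : Nat.card {u : Word n θ L // IsLS θ L u ∧ LamDom 0 θ L u ∧ EndsAt θ L u θ.sum} = 1 := by
      rw [Nat.card_eq_one_iff_unique]
      refine ⟨⟨fun a b => Subtype.ext ?_⟩, ⟨⟨_, hone⟩⟩⟩
      rw [dominant_word_eq_one hθ hL a.2.1 a.2.2.1, dominant_word_eq_one hθ hL b.2.1 b.2.2.1]
    rw [this]
    rfl
  · rw [if_neg e]
    have : IsEmpty {u : Word n θ L // IsLS θ L u ∧ LamDom 0 θ L u ∧ EndsAt θ L u κ} := by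
      refine ⟨fun a => e ?_⟩
      have h1 := a.2.2.2
      rw [dominant_word_eq_one hθ hL a.2.1 a.2.2.1] at h1
      have h2 := hone.2.2
      unfold EndsAt at h1 h2
      rw [h1] at h2
      funext i
      have := congrFun h2 i
      simp only [Pi.smul_apply, smul_eq_mul] at this
      exact mul_left_cancel₀ hLpos.ne' this
    rw [Nat.card_of_isEmpty]
    rfl

/-- (C2) finite support -/
theorem lsCount_support : (Function.support (lsCount θ L)).Finite := by
  apply Set.Finite.subset (Set.finite_range (endOf : Word n θ L → Fin n → ℤ))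
  intro χ hχ
  rw [Function.mem_support] at hχ
  unfold lsCount at hχ
  have h1 : Nat.card {u : Word n θ L // IsLS θ L u ∧ EndsAt θ L u χ} ≠ 0 := by
    intro e
    rw [e] at hχ
    exact hχ rfl
  have h2 : Nonempty {u : Word n θ L // IsLS θ L u ∧ EndsAt θ L u χ} := by
    by_contra hcon
    rw [not_nonempty_iff] at hcon
    exact h1 Nat.card_of_isEmpty
  obtain ⟨u, hu, he⟩ := h2
  exact ⟨u, (endsAt_iff_endOf hL hu χ).1 he⟩

omit hθ hL in
/-- alternating sums of an invariant kernel are skew -/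
theorem altW_kernel_skew (F : (Fin n → ℤ) → (Fin n → ℤ) → ℤ)
    (hF : ∀ (w : WD n) (a b : Fin n → ℤ), F (w.actZ a) (w.actZ b) = F a b) (w : WD n)
    (χ x : Fin n → ℤ) : altW (F (w.actZ χ)) x = w.det * altW (F χ) x := by
  rw [altW_eq_sum, altW_eq_sum, ← Equiv.sum_comp (Equiv.mulLeft w), Finset.mul_sum]
  refine Finset.sum_congr rfl fun v _ => ?_
  simp only [Equiv.coe_mulLeft, det_mul, actZ_mul, hF]
  ring

/-- (C3) both sides of the character identity are skew in `χ`.  [S3, W7] -/
theorem char_skew (mu χ : Fin n → ℤ) (w : WD n) :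
    altW (fun y => lsCount θ L (w.actZ χ - y)) (rhoZ n) =
        w.det * altW (fun y => lsCount θ L (χ - y)) (rhoZ n) ∧
      altW (fun y => if w.actZ χ = y then 1 else 0) (mu + rhoZ n) =
        w.det * altW (fun y => if χ = y then (1 : ℤ) else 0) (mu + rhoZ n) := by
  constructor
  · refine altW_kernel_skew (fun a b => lsCount θ L (a - b)) (fun v a b => ?_) w χ (rhoZ n)
    rw [← actZ_sub, lsCount_actZ hθ hL]
  · refine altW_kernel_skew (fun a b => if a = b then 1 else 0) (fun v a b => ?_) w χ (mu + rhoZ n)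
    have : v.actZ a = v.actZ b ↔ a = b := by
      constructor
      · intro h
        rw [← actZ_inv_actZ v a, h, actZ_inv_actZ]
      · rintro rfl
        rfl
    simp only [this]

/-- (C4) on a wall both sides vanish.  [C3 with `w = s_β`] -/
theorem char_wall (mu χ : Fin n → ℤ) (β : RootD n) (h : dotZ χ β.vecZ = 0) :
    altW (fun y => lsCount θ L (χ - y)) (rhoZ n) = 0 ∧
      altW (fun y => if χ = y then (1 : ℤ) else 0) (mu + rhoZ n) = 0 := by
  have e : (WD.rmul β 1).actZ χ = χ := by
    rw [← reflZ_eq_actZ, reflZ, h]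
    simp
  obtain ⟨h1, h2⟩ := char_skew hθ hL mu χ (WD.rmul β 1)
  rw [e, det_rmul_one] at h1 h2
  constructor <;> omega

/-- (C5) the right-hand side at a strictly dominant point.  [W6b] -/
theorem char_rhs_dom (mu κ : Fin n → ℤ) (hm : DomZ mu) (hk : DomZ κ) :
    altW (fun y => if κ + rhoZ n = y then (1 : ℤ) else 0) (mu + rhoZ n) =
      if κ = mu then 1 else 0 := by
  have := psiW_dom hk hm
  unfold psiW at this
  rw [altW_eq_sum]
  simp only [eq_comm (a := κ + rhoZ n), eq_comm (a := κ)]
  exact this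

end

/-- **(PM-0)** the LS words of shape `θ` have the Weyl character of `θ.sum`. -/
theorem ls_weylChar (θ : List (Fin n → ℤ)) (hθ : ∀ v ∈ θ, Ty.D.Reg (castV v)) (L : ℕ)
    (hL : GoodMod θ L) : IsWeylChar θ.sum (lsCount θ L) := by
  refine ⟨lsCount_support hθ hL, fun χ => ?_⟩
  rcases wall_or_regular χ with ⟨β, hβ⟩ | ⟨w, κ, hκ, rfl⟩
  · obtain ⟨h1, h2⟩ := char_wall hθ hL θ.sum χ β hβ
    rw [h1, h2]
  · obtain ⟨h1, h2⟩ := char_skew hθ hL θ.sum (κ + rhoZ n) w
    rw [h1, h2, char_rhs_dom hθ hL θ.sum κ (domZ_sum θ hθ) hκ]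
    have h3 := ls_klimyk hθ hL 0 κ domZ_zero hκ
    rw [zero_add, card_dominant hθ hL κ] at h3
    rw [h3]

end Claimed.Agent.R282
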