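import Claimed.Agent.R282.S2AB.Defs
import Claimed.Prelude.Def_0456

/-!
# Row 282, Sec. 2, package PM: the LS path model for REGULAR shapes, over `ℤ` (type `D_n`): definitions

A shape `θ = [d_1, …, d_r]` of regular dominant integral increments is cut into `r * L` equal pieces
and everything is multiplied by `L` (`L` = a common multiple of all pairings `d_j · γ`): piece `k` has
increment `pcs θ L k = d_{k / L}`.  A *word* assigns a Weyl group element to every piece.  It is an
*LS word* if consecutive letters `u_k, u_{k+1}` are joined by a chain of Bruhat COVERS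
`κ → s_β κ` with `κ η_{k+1} · β ≡ 0 mod L` (`η_k` = shape vertex).  After division by `L` these are
exactly the standard concatenations of Lakshmibai-Seshadri paths of shapes `d_1, …, d_r`
(= "integral schedules all of whose switches are covers").  See `S2AB/Plan.lean`, package PM.

This file: definitions only.
-/

set_option autoImplicit false

namespace Claimed.Agent.R282

variable {n : ℕ}

/-! ## integral vectors, roots, Weyl group -/

def dotZ (x y : Fin n → ℤ) : ℤ := ∑ i, x i * y i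

def sgnZ (b : Bool) : ℤ := if b then -1 else 1

def RootD.vecZ (β : RootD n) : Fin n → ℤ :=
  fun k => (if k = β.i then sgnZ β.si else 0) + (if k = β.j then sgnZ β.sj else 0)

def WD.actZ (w : WD n) (x : Fin n → ℤ) : Fin n → ℤ := fun i => sgnZ (w.s i) * x (w.σ.symm i)

def rhoZ (n : ℕ) : Fin n → ℤ := fun i => (n : ℤ) - 1 - ((i : ℕ) : ℤ)

def RootD.PosZ (β : RootD n) : Prop := 0 < dotZ β.vecZ (rhoZ n)

def DomZ (x : Fin n → ℤ) : Prop := ∀ i j : Fin n, i < j → |x j| ≤ x i

/-- sign pattern of `s_β u` -/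
def WD.rmulS (β : RootD n) (u : WD n) : Fin n → Bool :=
  fun k => xor (decide (β.si = β.sj) && (decide (k = β.i) || decide (k = β.j)))
    (u.s (Equiv.swap β.i β.j k))

theorem sgnZ_xor (a b : Bool) : sgnZ (xor a b) = sgnZ a * sgnZ b := by
  cases a <;> cases b <;> simp [sgnZ]

theorem sgnZ_mul_self (a : Bool) : sgnZ a * sgnZ a = 1 := by
  cases a <;> simp [sgnZ]

/-- parity of the number of signs = product of the signs -/
theorem even_card_iff_prod_sgnZ {ι : Type*} [Fintype ι] (s : ι → Bool) :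
    Even (Finset.univ.filter fun k => s k = true).card ↔ ∏ k, sgnZ (s k) = 1 := by
  have : ∏ k, sgnZ (s k) = (-1) ^ (Finset.univ.filter fun k => s k = true).card := by
    unfold sgnZ
    rw [Finset.prod_ite]
    simp
  rw [this, neg_one_pow_eq_one_iff_even (by norm_num)]

theorem WD.prod_sgnZ (u : WD n) : ∏ k, sgnZ (u.s k) = 1 :=
  (even_card_iff_prod_sgnZ u.s).1 u.even

theorem WD.rmul_even (β : RootD n) (u : WD n) :
    Even (Finset.univ.filter fun k => WD.rmulS β u k = true).card := by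
  rw [even_card_iff_prod_sgnZ]
  unfold WD.rmulS
  simp only [sgnZ_xor]
  rw [Finset.prod_mul_distrib, Equiv.prod_comp (Equiv.swap β.i β.j) (fun k => sgnZ (u.s k)),
    WD.prod_sgnZ, mul_one]
  by_cases h : β.si = β.sj
  · have : ∀ k : Fin n, sgnZ (decide (β.si = β.sj) && (decide (k = β.i) || decide (k = β.j)))
        = (if k = β.i then -1 else 1) * (if k = β.j then -1 else 1) := by
      intro k
      by_cases h1 : k = β.i
      · have h2 : k ≠ β.j := fun e => β.ne (h1.symm.trans e)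
        simp [h, h1, sgnZ, β.ne]
      · by_cases h2 : k = β.j
        · simp [h, h2, sgnZ, β.ne.symm]
        · simp [h, h1, h2, sgnZ]
    simp only [this]
    rw [Finset.prod_mul_distrib, Finset.prod_ite_eq', Finset.prod_ite_eq']
    simp
  · simp [h, sgnZ]

/-- `s_β u` -/
def WD.rmul (β : RootD n) (u : WD n) : WD n :=
  ⟨Equiv.swap β.i β.j * u.σ, WD.rmulS β u, WD.rmul_even β u⟩

/-! ## Bruhat order, covers, linked pairs -/

/-- downward reflection step `u → s_β u` (`β > 0`, `u⁻¹ β < 0`) -/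
def WDown (u v : WD n) : Prop :=
  ∃ β : RootD n, β.PosZ ∧ dotZ (u.actZ (rhoZ n)) β.vecZ < 0 ∧ v = WD.rmul β u

/-- `WGe u v` : `u ≥ v` -/
def WGe : WD n → WD n → Prop := Relation.ReflTransGen WDown

/-- a Bruhat cover `u → s_β u` whose coefficient at the shape vertex `η` is divisible by `L` -/
def LStep (L : ℤ) (η : Fin n → ℤ) (u v : WD n) : Prop :=
  ∃ β : RootD n, β.PosZ ∧ dotZ (u.actZ (rhoZ n)) β.vecZ < 0 ∧ v = WD.rmul β u ∧
    (∀ z, WGe u z → WGe z v → z = u ∨ z = v) ∧ L ∣ dotZ (u.actZ η) β.vecZ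

def Linked (L : ℤ) (η : Fin n → ℤ) : WD n → WD n → Prop := Relation.ReflTransGen (LStep L η)

/-! ## words -/

/-- increment of piece `k` -/
def pcs (θ : List (Fin n → ℤ)) (L : ℕ) (k : ℕ) : Fin n → ℤ := θ.getD (k / L) 0

/-- shape vertex `k` (scaled by `L`) -/
def etaZ (θ : List (Fin n → ℤ)) (L : ℕ) (k : ℕ) : Fin n → ℤ := ∑ i ∈ Finset.range k, pcs θ L i

/-- words -/
abbrev Word (n : ℕ) (θ : List (Fin n → ℤ)) (L : ℕ) := Fin (θ.length * L) → WD n

/-- path vertex `k` of a word (scaled by `L`) -/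
def vtx (θ : List (Fin n → ℤ)) (L : ℕ) (u : Word n θ L) (k : ℕ) : Fin n → ℤ :=
  ∑ i : Fin (θ.length * L), if (i : ℕ) < k then (u i).actZ (pcs θ L i) else 0

/-- LS words -/
def IsLS (θ : List (Fin n → ℤ)) (L : ℕ) (u : Word n θ L) : Prop :=
  ∀ i j : Fin (θ.length * L), (i : ℕ) + 1 = j → Linked L (etaZ θ L j) (u i) (u j)

/-- admissible moduli -/
def GoodMod (θ : List (Fin n → ℤ)) (L : ℕ) : Prop :=
  0 < L ∧ ∀ d ∈ θ, ∀ γ : RootD n, dotZ d γ.vecZ ∣ (L : ℤ)

/-- endpoint `χ` (unscaled) -/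
def EndsAt (θ : List (Fin n → ℤ)) (L : ℕ) (u : Word n θ L) (χ : Fin n → ℤ) : Prop :=
  vtx θ L u (θ.length * L) = (L : ℤ) • χ

/-- `lam + path` stays in the closed chamber -/
def LamDom (lam : Fin n → ℤ) (θ : List (Fin n → ℤ)) (L : ℕ) (u : Word n θ L) : Prop :=
  ∀ k, DomZ ((L : ℤ) • lam + vtx θ L u k)

/-- number of LS words ending at `χ` -/
noncomputable def lsCount (θ : List (Fin n → ℤ)) (L : ℕ) (χ : Fin n → ℤ) : ℤ :=
  (Nat.card {u : Word n θ L // IsLS θ L u ∧ EndsAt θ L u χ} : ℤ)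

/-! ## alternating sums over `W(D_n)`, in the `(σ, s)` form of `Def_0456` -/

noncomputable def altW (F : (Fin n → ℤ) → ℤ) (x : Fin n → ℤ) : ℤ :=
  ∑ σ : Equiv.Perm (Fin n), ∑ s : Fin n → Bool,
    if Even (Finset.univ.filter fun i => s i = true).card then
      ((Equiv.Perm.sign σ : ℤˣ) : ℤ) * F (Claims.C0456.signedPermAct σ s x)
    else 0

/-- `m` is the Weyl character of highest weight `mu`: `J(ρ) * m = J(mu + ρ)`. -/
def IsWeylChar (mu : Fin n → ℤ) (m : (Fin n → ℤ) → ℤ) : Prop :=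
  (Function.support m).Finite ∧ ∀ χ : Fin n → ℤ,
    altW (fun y => m (χ - y)) (rhoZ n) = altW (fun y => if χ = y then 1 else 0) (mu + rhoZ n)

end Claimed.Agent.R282
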