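import Claimed.Agent.R282.S2AB.PM.Link

/-!
# Package PM, layers G and H: vertices, congruences, the height function `h_k = <x_k, α>`

`m = θ.length * L` pieces; piece `k` runs from vertex `k` to vertex `k + 1` and carries the letter `u k`.
Standing hypotheses: `hθ` (regular shape), `hL : GoodMod θ L`, `hu : IsLS θ L u`, `hα : IsSimpleR α`.
-/

set_option autoImplicit false

namespace Claimed.Agent.R282

variable {n : ℕ} {θ : List (Fin n → ℤ)} {L : ℕ}

/-- height function -/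
def hgt (α : RootD n) (u : Word n θ L) (k : ℕ) : ℤ := dotZ (vtx θ L u k) α.vecZ

/-- global minimum of the height -/
def hmin (α : RootD n) (u : Word n θ L) : ℤ :=
  (Finset.range (θ.length * L + 1)).inf' ⟨0, by simp⟩ (hgt α u)

/-! ## G0: bookkeeping -/

theorem vtx_zero (u : Word n θ L) : vtx θ L u 0 = 0 := by
  simp [vtx]

theorem vtx_succ (u : Word n θ L) (k : ℕ) (hk : k < θ.length * L) :
    vtx θ L u (k + 1) = vtx θ L u k + (u ⟨k, hk⟩).actZ (pcs θ L k) := by
  unfold vtx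
  have : ∀ i : Fin (θ.length * L),
      (if (i : ℕ) < k + 1 then (u i).actZ (pcs θ L i) else 0)
        = (if (i : ℕ) < k then (u i).actZ (pcs θ L i) else 0)
          + (if i = ⟨k, hk⟩ then (u i).actZ (pcs θ L i) else 0) := by
    intro i
    by_cases h1 : (i : ℕ) < k
    · have h2 : i ≠ ⟨k, hk⟩ := fun e => by rw [e] at h1; exact lt_irrefl _ h1
      simp [h1, h2, Nat.lt_succ_of_lt h1]
    · by_cases h2 : i = ⟨k, hk⟩
      · subst h2
        simp
      · have h3 : ¬ (i : ℕ) < k + 1 := by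
          intro h3
          apply h2
          apply Fin.ext
          show (i : ℕ) = k
          omega
        simp [h1, h2, h3]
  simp only [this]
  rw [Finset.sum_add_distrib, Finset.sum_ite_eq']
  simp

theorem vtx_of_ge (u : Word n θ L) (k : ℕ) (hk : θ.length * L ≤ k) :
    vtx θ L u k = vtx θ L u (θ.length * L) := by
  unfold vtx
  refine Finset.sum_congr rfl fun i _ => ?_
  have h1 := i.2
  rw [if_pos (by omega), if_pos h1]

/-- two words with the same letters below `K` have the same vertices up to `K` -/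
theorem vtx_congr_below (u u' : Word n θ L) (K : ℕ)
    (h : ∀ i : Fin (θ.length * L), (i : ℕ) < K → u' i = u i) (k : ℕ) (hk : k ≤ K) :
    vtx θ L u' k = vtx θ L u k := by
  unfold vtx
  refine Finset.sum_congr rfl fun i _ => ?_
  by_cases h1 : (i : ℕ) < k
  · rw [if_pos h1, if_pos h1, h i (by omega)]
  · rw [if_neg h1, if_neg h1]

theorem etaZ_zero : etaZ θ L 0 = 0 := by simp [etaZ]

theorem etaZ_succ (k : ℕ) : etaZ θ L (k + 1) = etaZ θ L k + pcs θ L k := by
  simp [etaZ, Finset.sum_range_succ]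

theorem etaZ_block_aux (j c : ℕ) (hc : c ≤ L) :
    etaZ θ L (j * L + c) = etaZ θ L (j * L) + (c : ℤ) • θ.getD j 0 := by
  induction c with
  | zero => simp
  | succ c ih =>
    have hL : 0 < L := by omega
    have e : pcs θ L (j * L + c) = θ.getD j 0 := by
      unfold pcs
      congr 1
      rw [Nat.mul_comm, Nat.mul_add_div hL, Nat.div_eq_of_lt (by omega)]
      rfl
    rw [← add_assoc, etaZ_succ, ih (by omega), e]
    push_cast
    rw [add_smul, one_smul, add_assoc]

theorem sum_take_succ_getD (l : List (Fin n → ℤ)) (j : ℕ) :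
    (l.take (j + 1)).sum = (l.take j).sum + l.getD j 0 := by
  rw [List.take_add_one, List.sum_append, List.getD_eq_getElem?_getD]
  cases l[j]? <;> simp

theorem etaZ_mul (j : ℕ) : etaZ θ L (j * L) = (L : ℤ) • (θ.take j).sum := by
  induction j with
  | zero => simp [etaZ_zero]
  | succ j ih =>
    rw [Nat.succ_mul, etaZ_block_aux j L le_rfl, ih, sum_take_succ_getD, smul_add]

theorem etaZ_block (j c : ℕ) (hj : j < θ.length) (hc : c ≤ L) :
    etaZ θ L (j * L + c) = (L : ℤ) • (θ.take j).sum + (c : ℤ) • θ.getD j 0 := by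
  rw [etaZ_block_aux j c hc, etaZ_mul]

theorem etaZ_end : etaZ θ L (θ.length * L) = (L : ℤ) • θ.sum := by
  rw [etaZ_mul, List.take_length]

theorem pcs_mem (hL : 0 < L) (k : ℕ) (hk : k < θ.length * L) : pcs θ L k ∈ θ := by
  unfold pcs
  have h1 : k / L < θ.length := Nat.div_lt_of_lt_mul (by rwa [Nat.mul_comm] at hk)
  rw [List.getD_eq_getElem _ _ h1]
  exact List.getElem_mem h1

/-! ## G2-G4: congruences -/

theorem vtx_congr_both {u : Word n θ L} (hu : IsLS θ L u) (k : ℕ) (hk : k < θ.length * L)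
    (i : Fin n) : (L : ℤ) ∣ vtx θ L u k i - (u ⟨k, hk⟩).actZ (etaZ θ L k) i ∧
      (L : ℤ) ∣ vtx θ L u (k + 1) i - (u ⟨k, hk⟩).actZ (etaZ θ L (k + 1)) i := by
  have step : (L : ℤ) ∣ vtx θ L u k i - (u ⟨k, hk⟩).actZ (etaZ θ L k) i →
      (L : ℤ) ∣ vtx θ L u (k + 1) i - (u ⟨k, hk⟩).actZ (etaZ θ L (k + 1)) i := by
    intro h
    rw [vtx_succ u k hk, etaZ_succ, actZ_add]
    simpa using h
  induction k with
  | zero =>
    have : (L : ℤ) ∣ vtx θ L u 0 i - (u ⟨0, hk⟩).actZ (etaZ θ L 0) i := by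
      rw [vtx_zero, etaZ_zero, actZ_zero]
      simp
    exact ⟨this, step this⟩
  | succ k ih =>
    have h1 := (ih (by omega) (fun h => by
      rw [vtx_succ u k (by omega), etaZ_succ, actZ_add]
      simpa using h)).2
    have h2 := linked_congr (hu ⟨k, by omega⟩ ⟨k + 1, hk⟩ rfl) i
    have : (L : ℤ) ∣ vtx θ L u (k + 1) i - (u ⟨k + 1, hk⟩).actZ (etaZ θ L (k + 1)) i := by
      have := dvd_sub h1 h2
      simpa using this
    exact ⟨this, step this⟩

/-- (G2a) `x_k ≡ u_k η_k mod L`.  [simultaneous induction with G2b; LK-G at the vertices] -/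
theorem vtx_congr_left {u : Word n θ L} (hu : IsLS θ L u) (k : ℕ) (hk : k < θ.length * L)
    (i : Fin n) : (L : ℤ) ∣ vtx θ L u k i - (u ⟨k, hk⟩).actZ (etaZ θ L k) i := by
  exact (vtx_congr_both hu k hk i).1

/-- (G2b) `x_{k+1} ≡ u_k η_{k+1} mod L` -/
theorem vtx_congr_right {u : Word n θ L} (hu : IsLS θ L u) (k : ℕ) (hk : k < θ.length * L)
    (i : Fin n) : (L : ℤ) ∣ vtx θ L u (k + 1) i - (u ⟨k, hk⟩).actZ (etaZ θ L (k + 1)) i := by
  exact (vtx_congr_both hu k hk i).2

/-- (G3) `s = <w δ_k, γ>` divides `L` and `<w η_k, γ>`.  [W2c for `w⁻¹`, `etaZ_block`] -/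
theorem grid_dvd (hL : GoodMod θ L) (k : ℕ) (hk : k < θ.length * L) (w : WD n) (γ : RootD n) :
    dotZ (w.actZ (pcs θ L k)) γ.vecZ ∣ (L : ℤ) ∧
      dotZ (w.actZ (pcs θ L k)) γ.vecZ ∣ dotZ (w.actZ (etaZ θ L k)) γ.vecZ := by
  obtain ⟨γ', hγ'⟩ := exists_root_actZ w⁻¹ γ
  rw [dotZ_actZ_left, dotZ_actZ_left, ← hγ']
  have hd : dotZ (pcs θ L k) γ'.vecZ ∣ (L : ℤ) := hL.2 _ (pcs_mem hL.1 k hk) γ'
  refine ⟨hd, ?_⟩
  have hj : k / L < θ.length := Nat.div_lt_of_lt_mul (by rwa [Nat.mul_comm] at hk)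
  have e : etaZ θ L k = (L : ℤ) • (θ.take (k / L)).sum + ((k % L : ℕ) : ℤ) • pcs θ L k := by
    conv_lhs => rw [← Nat.div_add_mod' k L]
    rw [etaZ_block (k / L) (k % L) hj (Nat.mod_lt _ hL.1).le]
    rfl
  rw [e, dotZ_add_left, dotZ_smul_left, dotZ_smul_left]
  exact dvd_add (Dvd.dvd.mul_right hd _) (Dvd.intro_left _ rfl)

theorem hgt_zero (α : RootD n) (u : Word n θ L) : hgt α u 0 = 0 := by
  rw [hgt, vtx_zero, dotZ_zero_left]

theorem hgt_succ (α : RootD n) (u : Word n θ L) (k : ℕ) (hk : k < θ.length * L) :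
    hgt α u (k + 1) = hgt α u k + dotZ ((u ⟨k, hk⟩).actZ (pcs θ L k)) α.vecZ := by
  rw [hgt, vtx_succ u k hk, dotZ_add_left]
  rfl

/-- coordinatewise congruence gives congruence of the pairings with roots -/
theorem dvd_dotZ_sub {c : ℤ} {x y : Fin n → ℤ} (h : ∀ i, c ∣ x i - y i) (γ : RootD n) :
    c ∣ dotZ x γ.vecZ - dotZ y γ.vecZ := by
  rw [dotZ_vecZ, dotZ_vecZ]
  have : sgnZ γ.si * x γ.i + sgnZ γ.sj * x γ.j - (sgnZ γ.si * y γ.i + sgnZ γ.sj * y γ.j)
      = sgnZ γ.si * (x γ.i - y γ.i) + sgnZ γ.sj * (x γ.j - y γ.j) := by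
    ring
  rw [this]
  exact dvd_add (Dvd.dvd.mul_left (h _) _) (Dvd.dvd.mul_left (h _) _)

/-- (G3') the step divides the height at its left end.  [G2a, G3] -/
theorem step_dvd_hgt (hL : GoodMod θ L) {u : Word n θ L} (hu : IsLS θ L u) (α : RootD n) (k : ℕ)
    (hk : k < θ.length * L) : dotZ ((u ⟨k, hk⟩).actZ (pcs θ L k)) α.vecZ ∣ hgt α u k := by
  obtain ⟨h1, h2⟩ := grid_dvd hL k hk (u ⟨k, hk⟩) α
  have h3 := dvd_dotZ_sub (fun i => vtx_congr_left hu k hk i) α
  have := dvd_add (h1.trans h3) h2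
  simpa [hgt] using this

/-- (GRID) a multiple of `L` is never strictly between two consecutive heights. -/
theorem grid_no_skip (hL : GoodMod θ L) {u : Word n θ L} (hu : IsLS θ L u) (α : RootD n) (k : ℕ)
    (hk : k < θ.length * L) (c : ℤ) (hc : (L : ℤ) ∣ c) :
    ¬ (hgt α u k < c ∧ c < hgt α u (k + 1)) ∧ ¬ (hgt α u (k + 1) < c ∧ c < hgt α u k) := by
  obtain ⟨a, ha⟩ := step_dvd_hgt hL hu α k hk
  obtain ⟨b, hb⟩ := ((grid_dvd hL k hk (u ⟨k, hk⟩) α).1).trans hc
  rw [hgt_succ α u k hk, ha, hb]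
  generalize dotZ ((u ⟨k, hk⟩).actZ (pcs θ L k)) α.vecZ = s
  constructor
  · rintro ⟨h1, h2⟩
    rcases lt_trichotomy s 0 with hs | hs | hs
    · have e1 : b < a := by
        by_contra hcon
        have := mul_le_mul_of_nonpos_left (not_lt.1 hcon) hs.le
        omega
      nlinarith
    · subst hs
      simp at h1
    · have e1 : a < b := lt_of_mul_lt_mul_left h1 hs.le
      have e2 : b < a + 1 := by
        apply lt_of_mul_lt_mul_left _ hs.le
        rw [mul_add, mul_one]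
        exact h2
      omega
  · rintro ⟨h1, h2⟩
    rcases lt_trichotomy s 0 with hs | hs | hs
    · have e1 : a < b := by
        by_contra hcon
        have := mul_le_mul_of_nonpos_left (not_lt.1 hcon) hs.le
        omega
      have e2 : b < a + 1 := by
        by_contra hcon
        have := mul_le_mul_of_nonpos_left (not_lt.1 hcon) hs.le
        rw [mul_add, mul_one] at this
        omega
      omega
    · subst hs
      simp at h2
    · have e1 : b < a := lt_of_mul_lt_mul_left h2 hs.le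
      nlinarith

/-- (SIGN) [W3b] -/
theorem hgt_succ_lt_iff (hθ : ∀ v ∈ θ, Ty.D.Reg (castV v)) (hL : GoodMod θ L) (α : RootD n)
    (u : Word n θ L) (k : ℕ) (hk : k < θ.length * L) :
    (hgt α u (k + 1) < hgt α u k ↔ ANeg α (u ⟨k, hk⟩)) ∧
      (hgt α u k < hgt α u (k + 1) ↔ ¬ ANeg α (u ⟨k, hk⟩)) := by
  have h1 := sign_reg (pcs θ L k) (hθ _ (pcs_mem hL.1 k hk)) (u ⟨k, hk⟩) α
  have h2 := dotZ_rho_ne (u ⟨k, hk⟩) α
  rw [hgt_succ α u k hk]
  unfold ANeg
  constructor
  · rw [← h1.2]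
    constructor <;> intro h <;> omega
  · rw [not_lt]
    constructor
    · intro h
      have := h1.1.1 (by omega)
      omega
    · intro h
      have := h1.1.2 (by omega)
      omega

/-- (G4) the endpoint lies in `L ℤ^n` -/
theorem vtx_end_dvd {u : Word n θ L} (hu : IsLS θ L u) (i : Fin n) :
    (L : ℤ) ∣ vtx θ L u (θ.length * L) i := by
  rcases Nat.eq_zero_or_pos (θ.length * L) with h0 | h0
  · rw [h0, vtx_zero]
    simp
  · obtain ⟨k, hk⟩ : ∃ k, θ.length * L = k + 1 := ⟨θ.length * L - 1, by omega⟩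
    have h1 := vtx_congr_right hu k (by omega) i
    rw [← hk, etaZ_end, actZ_smul] at h1
    have h2 : (L : ℤ) ∣ ((L : ℤ) • (u ⟨k, by omega⟩).actZ θ.sum) i := by
      simp
    have := dvd_add h1 h2
    simpa using this

theorem exists_endsAt (hL : GoodMod θ L) {u : Word n θ L} (hu : IsLS θ L u) :
    ∃ χ, EndsAt θ L u χ ∧ ∀ χ', EndsAt θ L u χ' → χ' = χ := by
  have hL0 : (L : ℤ) ≠ 0 := by
    have := hL.1
    positivity
  refine ⟨fun i => vtx θ L u (θ.length * L) i / L, ?_, ?_⟩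
  · funext i
    simp only [Pi.smul_apply, smul_eq_mul]
    rw [Int.mul_ediv_cancel' (vtx_end_dvd hu i)]
  · intro χ' h
    funext i
    have := congrFun h i
    simp only [Pi.smul_apply, smul_eq_mul] at this
    rw [this, Int.mul_ediv_cancel_left _ hL0]

/-! ## H: local minima -/

/-- (H1) [LK-H at vertex `k + 1`, G2b] -/
theorem hgt_localmin_dvd {α : RootD n} (hα : IsSimpleR α) {u : Word n θ L} (hu : IsLS θ L u)
    (k : ℕ) (hk : k + 1 < θ.length * L) (h1 : ANeg α (u ⟨k, by omega⟩))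
    (h2 : ¬ ANeg α (u ⟨k + 1, hk⟩)) : (L : ℤ) ∣ hgt α u (k + 1) := by
  have h3 := linked_neg_pos_dvd hα (hu ⟨k, by omega⟩ ⟨k + 1, hk⟩ rfl) h1 h2
  have h4 := dvd_dotZ_sub (fun i => vtx_congr_right hu k (by omega) i) α
  have := dvd_add h4 h3
  simpa [hgt] using this

/-- (H5) the minimum of the height on an interval is attained at an end or is a multiple of `L`. -/
theorem hgt_interval_min (hθ : ∀ v ∈ θ, Ty.D.Reg (castV v)) (hL : GoodMod θ L) {α : RootD n}
    (hα : IsSimpleR α) {u : Word n θ L} (hu : IsLS θ L u) (a b : ℕ) (hab : a ≤ b)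
    (hb : b ≤ θ.length * L) :
    ∃ k, a ≤ k ∧ k ≤ b ∧ (∀ j, a ≤ j → j ≤ b → hgt α u k ≤ hgt α u j) ∧
      (k = a ∨ k = b ∨ (L : ℤ) ∣ hgt α u k) := by
  obtain ⟨k, hk, hmin⟩ := Finset.exists_min_image (Finset.Icc a b) (hgt α u) ⟨a, by simp [hab]⟩
  rw [Finset.mem_Icc] at hk
  refine ⟨k, hk.1, hk.2, fun j h1 h2 => hmin j (Finset.mem_Icc.2 ⟨h1, h2⟩), ?_⟩
  by_cases ha : k = a
  · exact Or.inl ha
  by_cases hb' : k = b
  · exact Or.inr (Or.inl hb')
  right; right
  obtain ⟨k', rfl⟩ : ∃ k', k = k' + 1 := ⟨k - 1, by omega⟩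
  have m1 := hmin k' (Finset.mem_Icc.2 ⟨by omega, by omega⟩)
  have m2 := hmin (k' + 1 + 1) (Finset.mem_Icc.2 ⟨by omega, by omega⟩)
  have s1 := hgt_succ_lt_iff hθ hL α u k' (by omega)
  have s2 := hgt_succ_lt_iff hθ hL α u (k' + 1) (by omega)
  refine hgt_localmin_dvd hα hu k' (by omega) ?_ ?_
  · by_contra hcon
    have := s1.2.2 hcon
    omega
  · intro hcon
    have := s2.1.2 hcon
    omega

theorem hmin_le (α : RootD n) (u : Word n θ L) (k : ℕ) : hmin α u ≤ hgt α u k := by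
  by_cases hk : k ≤ θ.length * L
  · exact Finset.inf'_le _ (Finset.mem_range.2 (by omega))
  · have : hgt α u k = hgt α u (θ.length * L) := by
      unfold hgt
      rw [vtx_of_ge u k (by omega)]
    rw [this]
    exact Finset.inf'_le _ (Finset.mem_range.2 (by omega))

theorem exists_hmin (α : RootD n) (u : Word n θ L) :
    ∃ k, k ≤ θ.length * L ∧ hgt α u k = hmin α u := by
  obtain ⟨k, hk, e⟩ := Finset.exists_mem_eq_inf' (s := Finset.range (θ.length * L + 1))
    ⟨0, by simp⟩ (hgt α u)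
  exact ⟨k, by have := Finset.mem_range.1 hk; omega, e.symm⟩

/-- (H2) [H5 on `[0, m]`, `hgt_zero`, G4] -/
theorem hmin_dvd (hθ : ∀ v ∈ θ, Ty.D.Reg (castV v)) (hL : GoodMod θ L) {α : RootD n}
    (hα : IsSimpleR α) {u : Word n θ L} (hu : IsLS θ L u) : (L : ℤ) ∣ hmin α u := by
  obtain ⟨k, _, hk2, hmin', hcase⟩ := hgt_interval_min hθ hL hα hu 0 (θ.length * L) (Nat.zero_le _)
    le_rfl
  obtain ⟨k', hk', e'⟩ := exists_hmin α u
  have e : hgt α u k = hmin α u :=
    le_antisymm (e' ▸ hmin' k' (Nat.zero_le _) hk') (hmin_le α u k)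
  rw [← e]
  rcases hcase with rfl | rfl | h
  · rw [hgt_zero]
    simp
  · unfold hgt
    rw [dotZ_vecZ]
    exact dvd_add (Dvd.dvd.mul_left (vtx_end_dvd hu _) _) (Dvd.dvd.mul_left (vtx_end_dvd hu _) _)
  · exact h

/-- no multiple of `L` lies strictly between two consecutive multiples of `L` -/
theorem no_mult_between {L c x : ℤ} (hc : L ∣ c) (hx : L ∣ x) (h1 : c < x) (h2 : x < c + L) :
    False := by
  obtain ⟨a, rfl⟩ := hc
  obtain ⟨b, rfl⟩ := hx
  have hL : 0 < L := by omega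
  have e1 : a < b := lt_of_mul_lt_mul_left h1 hL.le
  have e2 : b < a + 1 := by
    apply lt_of_mul_lt_mul_left _ hL.le
    rw [mul_add, mul_one]
    exact h2
  omega

/-- (H3) run up from a level `c ∈ L ℤ` that is never met again. -/
theorem run_up (hθ : ∀ v ∈ θ, Ty.D.Reg (castV v)) (hL : GoodMod θ L) {α : RootD n}
    (hα : IsSimpleR α) {u : Word n θ L} (hu : IsLS θ L u) {k0 k1 : ℕ} {c : ℤ} (hc : (L : ℤ) ∣ c)
    (h01 : k0 < k1) (h1m : k1 ≤ θ.length * L) (h0 : hgt α u k0 = c)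
    (habove : ∀ k, k0 < k → k ≤ k1 → c < hgt α u k)
    (hfirst : ∀ k, k0 < k → k < k1 → hgt α u k < c + L) (hk1 : c + L ≤ hgt α u k1) :
    hgt α u k1 = c + L ∧
      ∀ (k : ℕ) (hk : k < θ.length * L), k0 ≤ k → k < k1 → ¬ ANeg α (u ⟨k, hk⟩) := by
  have hLpos : (0 : ℤ) < L := by
    have := hL.1
    positivity
  have hend : hgt α u k1 = c + L := by
    obtain ⟨k', rfl⟩ : ∃ k', k1 = k' + 1 := ⟨k1 - 1, by omega⟩
    have h2 : hgt α u k' < c + L := by
      by_cases e : k' = k0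
      · rw [e, h0]
        omega
      · exact hfirst k' (by omega) (by omega)
    have := (grid_no_skip hL hu α k' (by omega) (c + L) (dvd_add hc dvd_rfl)).1
    by_contra hne
    exact this ⟨h2, by omega⟩
  refine ⟨hend, fun k hk hk0 hk1' hneg => ?_⟩
  have s1 := (hgt_succ_lt_iff hθ hL α u k hk).1.2 hneg
  have hkk0 : k ≠ k0 := by
    rintro rfl
    have := habove (k + 1) (by omega) (by omega)
    omega
  obtain ⟨j, hj1, hj2, hmin', hcase⟩ := hgt_interval_min hθ hL hα hu k k1 (by omega) h1m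
  have hk_lt : hgt α u k < c + L := hfirst k (by omega) hk1'
  rcases hcase with rfl | rfl | h
  · have := hmin' (j + 1) (by omega) (by omega)
    omega
  · have := hmin' k le_rfl (by omega)
    omega
  · have a1 := habove j (by omega) hj2
    have a2 := hmin' k le_rfl (by omega)
    exact no_mult_between hc h a1 (by omega)

/-- (H3') run down to a level `c ∈ L ℤ` that was never met before. -/
theorem run_down (hθ : ∀ v ∈ θ, Ty.D.Reg (castV v)) (hL : GoodMod θ L) {α : RootD n}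
    (hα : IsSimpleR α) {u : Word n θ L} (hu : IsLS θ L u) {k0 k1 : ℕ} {c : ℤ} (hc : (L : ℤ) ∣ c)
    (h01 : k0 < k1) (h1m : k1 ≤ θ.length * L) (h1 : hgt α u k1 = c)
    (habove : ∀ k, k0 ≤ k → k < k1 → c < hgt α u k)
    (hlast : ∀ k, k0 < k → k < k1 → hgt α u k < c + L) (hk0 : c + L ≤ hgt α u k0) :
    hgt α u k0 = c + L ∧
      ∀ (k : ℕ) (hk : k < θ.length * L), k0 ≤ k → k < k1 → ANeg α (u ⟨k, hk⟩) := by
  have hLpos : (0 : ℤ) < L := by
    have := hL.1
    positivity
  have hstart : hgt α u k0 = c + L := by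
    have h2 : hgt α u (k0 + 1) < c + L := by
      by_cases e : k0 + 1 = k1
      · rw [e, h1]
        omega
      · exact hlast (k0 + 1) (by omega) (by omega)
    have := (grid_no_skip hL hu α k0 (by omega) (c + L) (dvd_add hc dvd_rfl)).2
    by_contra hne
    exact this ⟨h2, by omega⟩
  refine ⟨hstart, fun k hk hk0' hk1' => ?_⟩
  by_contra hpos
  have s1 := (hgt_succ_lt_iff hθ hL α u k hk).2.2 hpos
  have hkk1 : k + 1 ≠ k1 := by
    intro e
    have := habove k hk0' hk1'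
    rw [e, h1] at s1
    omega
  obtain ⟨j, hj1, hj2, hmin', hcase⟩ := hgt_interval_min hθ hL hα hu k0 (k + 1) (by omega)
    (by omega)
  have hk_lt : hgt α u (k + 1) < c + L := hlast (k + 1) (by omega) (by omega)
  rcases hcase with rfl | rfl | h
  · have := hmin' (k + 1) (by omega) le_rfl
    omega
  · have := hmin' k (by omega) (by omega)
    omega
  · have a1 := habove j hj1 (by omega)
    have a2 := hmin' (k + 1) (by omega) le_rfl
    exact no_mult_between hc h a1 (by omega)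

end Claimed.Agent.R282
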