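import Claimed.Agent.R282.S2AB.PM.Bruhat

/-!
# Package PM, layer LK: calculus of linked pairs

`Linked L η u v`: a chain of covers `κ → s_β κ` from `u` to `v` with `L ∣ <κ η, β>`.
`α` is a simple root.  These seven lemmas are all that the root operators need from Bruhat order.
-/

set_option autoImplicit false

namespace Claimed.Agent.R282

variable {n : ℕ} {L : ℤ} {η : Fin n → ℤ}

theorem lstep_wcov {u v : WD n} (h : LStep L η u v) : WCov u v := by
  obtain ⟨β, h1, h2, h3, h4, _⟩ := h
  exact ⟨⟨β, h1, h2, h3⟩, h4⟩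

theorem lstep_congr {u v : WD n} (h : LStep L η u v) (i : Fin n) :
    L ∣ v.actZ η i - u.actZ η i := by
  obtain ⟨β, _, _, rfl, _, h5⟩ := h
  rw [actZ_rmul, reflZ]
  simp only [Pi.sub_apply, Pi.smul_apply, smul_eq_mul, sub_sub_cancel_left]
  exact (Dvd.dvd.mul_right h5 _).neg_right

/-- (LK-W) -/
theorem linked_wge {u v : WD n} (h : Linked L η u v) : WGe u v := by
  induction h with
  | refl => exact Relation.ReflTransGen.refl
  | tail _ hab ih => exact ih.tail (lstep_wcov hab).1

/-- (LK-G) `v η ≡ u η mod L`, coordinatewise.  [one step: `s_β κ η = κ η - <κ η, β> β`] -/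
theorem linked_congr {u v : WD n} (h : Linked L η u v) (i : Fin n) :
    L ∣ v.actZ η i - u.actZ η i := by
  induction h with
  | refl => simp
  | @tail a b _ hab ih =>
    have := dvd_add (lstep_congr hab i) ih
    simpa using this

/-- (LK-G') -/
theorem linked_congr_dot {u v : WD n} (h : Linked L η u v) (γ : RootD n) :
    L ∣ dotZ (v.actZ η) γ.vecZ - dotZ (u.actZ η) γ.vecZ := by
  rw [dotZ_vecZ, dotZ_vecZ]
  have h1 := linked_congr h γ.i
  have h2 := linked_congr h γ.j
  have : sgnZ γ.si * v.actZ η γ.i + sgnZ γ.sj * v.actZ η γ.j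
      - (sgnZ γ.si * u.actZ η γ.i + sgnZ γ.sj * u.actZ η γ.j)
      = sgnZ γ.si * (v.actZ η γ.i - u.actZ η γ.i) + sgnZ γ.sj * (v.actZ η γ.j - u.actZ η γ.j) := by
    ring
  rw [this]
  exact dvd_add (Dvd.dvd.mul_left h1 _) (Dvd.dvd.mul_left h2 _)

/-- (LK-S) one step, translated.  [B6, W5b, W1e: `<s_α κ η, s_α β> = <κ η, β>`; the new root is
positive by W4 because `β ≠ α` (equal signs)] -/
theorem lstep_translate {α : RootD n} (hα : IsSimpleR α) {u v : WD n} (h : LStep L η u v)
    (hs : ANeg α u ↔ ANeg α v) : LStep L η (WD.rmul α u) (WD.rmul α v) := by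
  have hc := wcov_translate hα (lstep_wcov h) hs
  obtain ⟨β, h1, h2, rfl, _, h5⟩ := h
  have hne : β.vecZ ≠ α.vecZ := by
    intro e
    rw [rmul_congr (Or.inl e) u] at hs
    have := aneg_rmul α u
    tauto
  obtain ⟨β', e1, e2⟩ := simple_refl_pos hα β h1 hne
  refine ⟨β', e2, ?_, rmul_comm_conj α β β' e1 u, hc.2, ?_⟩
  · rw [actZ_rmul, e1, reflZ_eq_actZ, reflZ_eq_actZ, dotZ_actZ]
    exact h2
  · rw [actZ_rmul, e1, reflZ_eq_actZ, reflZ_eq_actZ, dotZ_actZ]
    exact h5

/-- (LK-Z) one step that changes the `α`-sign from negative to positive is the `α`-step. [B5] -/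
theorem lstep_Z {α : RootD n} (hα : IsSimpleR α) {u v : WD n} (h : LStep L η u v) (hu : ANeg α u)
    (hv : ¬ ANeg α v) : v = WD.rmul α u ∧ L ∣ dotZ (u.actZ η) α.vecZ := by
  have e := wcov_Z hα (lstep_wcov h) hu hv
  refine ⟨e, ?_⟩
  obtain ⟨β, _, _, rfl, _, h5⟩ := h
  have e2 := congrFun (congrArg (fun w : WD n => w.actZ η) e) α.i
  simp only [actZ_rmul, reflZ, Pi.sub_apply, Pi.smul_apply, smul_eq_mul, vecZ_i] at e2
  have e3 : dotZ (u.actZ η) α.vecZ * sgnZ α.si = dotZ (u.actZ η) β.vecZ * β.vecZ α.i := by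
    omega
  have e4 : dotZ (u.actZ η) α.vecZ
      = dotZ (u.actZ η) β.vecZ * β.vecZ α.i * sgnZ α.si := by
    rw [← e3, mul_assoc, sgnZ_mul_self, mul_one]
  rw [e4]
  exact Dvd.dvd.mul_right (Dvd.dvd.mul_right h5 _) _

/-- (LK-H) a chain from an `α`-negative to an `α`-positive element contains the `α`-step, hence
`L ∣ <u η, α>`.  [LK-Z at the last negative member, LK-G'] -/
theorem linked_neg_pos_dvd {α : RootD n} (hα : IsSimpleR α) {u v : WD n} (h : Linked L η u v)
    (hu : ANeg α u) (hv : ¬ ANeg α v) : L ∣ dotZ (u.actZ η) α.vecZ := by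
  induction h using Relation.ReflTransGen.head_induction_on with
  | refl => exact absurd hu hv
  | @head a b hab hbv ih =>
    by_cases hb : ANeg α b
    · have h1 := ih hb
      have h2 := linked_congr_dot (Relation.ReflTransGen.single hab) α
      have := dvd_sub h1 h2
      simpa using this
    · exact (lstep_Z hα hab hu hb).2

/-- (LK-A) [last negative member `κ_j`, `κ_{j+1} = s_α κ_j`, the rest is positive: translate it] -/
theorem linked_neg_pos_left {α : RootD n} (hα : IsSimpleR α) {u v : WD n} (h : Linked L η u v)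
    (hu : ANeg α u) (hv : ¬ ANeg α v) : Linked L η u (WD.rmul α v) := by
  induction h with
  | refl => exact absurd hu hv
  | @tail a b hua hab ih =>
    by_cases ha : ANeg α a
    · rw [(lstep_Z hα hab ha hv).1, rmul_rmul]
      exact hua
    · exact (ih ha).tail (lstep_translate hα hab (by tauto))

/-- (LK-E) [first positive member] -/
theorem linked_neg_pos_right {α : RootD n} (hα : IsSimpleR α) {u v : WD n} (h : Linked L η u v)
    (hu : ANeg α u) (hv : ¬ ANeg α v) : Linked L η (WD.rmul α u) v := by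
  induction h using Relation.ReflTransGen.head_induction_on with
  | refl => exact absurd hu hv
  | @head a b hab hbv ih =>
    by_cases hb : ANeg α b
    · exact (ih hb).head (lstep_translate hα hab (by tauto))
    · rw [← (lstep_Z hα hab hu hb).1]
      exact hbv

/-- (LK-B) equal signs at both ends and `L ∤ <u η, α>`: no member changes sign from negative to
positive (LK-Z, LK-G'), so all members have the same sign; translate every step (LK-S). -/
theorem linked_translate {α : RootD n} (hα : IsSimpleR α) {u v : WD n} (h : Linked L η u v)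
    (hs : ANeg α u ↔ ANeg α v) (hnd : ¬ L ∣ dotZ (u.actZ η) α.vecZ) :
    Linked L η (WD.rmul α u) (WD.rmul α v) := by
  induction h using Relation.ReflTransGen.head_induction_on with
  | refl => exact Relation.ReflTransGen.refl
  | @head a b hab hbv ih =>
    have hnd' : ¬ L ∣ dotZ (b.actZ η) α.vecZ := by
      intro h1
      have h2 := linked_congr_dot (Relation.ReflTransGen.single hab) α
      have := dvd_sub h1 h2
      exact hnd (by simpa using this)
    have hab' : ANeg α a ↔ ANeg α b := by
      by_cases ha : ANeg α a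
      · by_cases hb : ANeg α b
        · tauto
        · exact absurd (lstep_Z hα hab ha hb).2 hnd
      · by_cases hb : ANeg α b
        · exact absurd (linked_neg_pos_dvd hα hbv hb (by tauto)) hnd'
        · tauto
    exact (ih (by tauto) hnd').head (lstep_translate hα hab hab')

/-- (LK-C) prepend the `α`-cover `s_α u → u`.  [B7] -/
theorem linked_prepend {α : RootD n} (hα : IsSimpleR α) {u v : WD n} (hu : ¬ ANeg α u)
    (hd : L ∣ dotZ (u.actZ η) α.vecZ) (h : Linked L η u v) : Linked L η (WD.rmul α u) v := by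
  refine Relation.ReflTransGen.head ?_ h
  have hn : ANeg α (WD.rmul α u) := (aneg_rmul α u).2 hu
  have hc := wcov_simple hα hn
  rw [rmul_rmul] at hc
  refine ⟨α, hα.1, hn, (rmul_rmul α u).symm, hc.2, ?_⟩
  rw [dotZ_rmul_self]
  exact hd.neg_right

/-- (LK-D) append the `α`-cover `v → s_α v`.  [B7] -/
theorem linked_append {α : RootD n} (hα : IsSimpleR α) {u v : WD n} (hv : ANeg α v)
    (hd : L ∣ dotZ (v.actZ η) α.vecZ) (h : Linked L η u v) : Linked L η u (WD.rmul α v) := by
  refine Relation.ReflTransGen.tail h ?_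
  exact ⟨α, hα.1, hv, rfl, (wcov_simple hα hv).2, hd⟩

/-- (LK-0) at a vertex in `L ℤ^n` every comparison is a link.  [B4] -/
theorem linked_of_wge {u v : WD n} (h : WGe u v) (hη : ∀ i, L ∣ η i) : Linked L η u v := by
  have h1 := wge_covers h
  induction h1 with
  | refl => exact Relation.ReflTransGen.refl
  | @tail a b hua hab ih =>
    have hua' : WGe u a := by
      clear ih hab h
      induction hua with
      | refl => exact Relation.ReflTransGen.refl
      | tail _ hcd ih2 => exact ih2.tail hcd.1
    refine (ih hua').tail ?_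
    obtain ⟨⟨β, b1, b2, b3⟩, hint⟩ := hab
    refine ⟨β, b1, b2, b3, hint, ?_⟩
    rw [dotZ_vecZ]
    have : ∀ i, L ∣ a.actZ η i := fun i => Dvd.dvd.mul_left (hη _) _
    exact dvd_add (Dvd.dvd.mul_left (this _) _) (Dvd.dvd.mul_left (this _) _)

end Claimed.Agent.R282
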