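import Claimed.Agent.R282.S2AB.PM.Height

/-!
# Package PM, layer F: the root operators `e_α`, `f_α` on LS words

`f_α`: `k0` = last vertex of minimal height `M`, `k1` = first later vertex of height `M + L`; the letters
`k0 ≤ k < k1` are multiplied by `s_α`.  `e_α`: `k1` = first vertex of height `M`, `k0` = last earlier
vertex of height `M + L`.  Proof plans: `S2AB/Plan.lean`, package PM, layer F.
-/

set_option autoImplicit false

namespace Claimed.Agent.R282

variable {n : ℕ} {θ : List (Fin n → ℤ)} {L : ℕ}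

/-- multiply the letters `k0 ≤ k < k1` by `s_α` -/
def reflBlock (α : RootD n) (k0 k1 : ℕ) (u : Word n θ L) : Word n θ L :=
  fun i => if k0 ≤ (i : ℕ) ∧ (i : ℕ) < k1 then WD.rmul α (u i) else u i

structure IsFData (α : RootD n) (u : Word n θ L) (k0 k1 : ℕ) : Prop where
  lt : k0 < k1
  le : k1 ≤ θ.length * L
  at0 : hgt α u k0 = hmin α u
  after : ∀ k, k0 < k → hmin α u < hgt α u k
  at1 : hgt α u k1 = hmin α u + L
  before : ∀ k, k0 < k → k < k1 → hgt α u k < hmin α u + L

structure IsEData (α : RootD n) (u : Word n θ L) (k0 k1 : ℕ) : Prop where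
  lt : k0 < k1
  le : k1 ≤ θ.length * L
  at1 : hgt α u k1 = hmin α u
  before : ∀ k, k < k1 → hmin α u < hgt α u k
  at0 : hgt α u k0 = hmin α u + L
  between : ∀ k, k0 < k → k < k1 → hgt α u k < hmin α u + L

/-- (F1e) -/
theorem fdata_unique {α : RootD n} {u : Word n θ L} {k0 k1 k0' k1' : ℕ} (h : IsFData α u k0 k1)
    (h' : IsFData α u k0' k1') : k0 = k0' ∧ k1 = k1' := by
  have e0 : k0 = k0' := by
    rcases lt_trichotomy k0 k0' with c | c | c
    · have := h.after k0' c
      rw [h'.at0] at this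
      omega
    · exact c
    · have := h'.after k0 c
      rw [h.at0] at this
      omega
  subst e0
  refine ⟨rfl, ?_⟩
  rcases lt_trichotomy k1 k1' with c | c | c
  · have := h'.before k1 h.lt c
    rw [h.at1] at this
    omega
  · exact c
  · have := h.before k1' h'.lt c
    rw [h'.at1] at this
    omega

/-- (F1f) -/
theorem edata_unique {α : RootD n} {u : Word n θ L} {k0 k1 k0' k1' : ℕ} (h : IsEData α u k0 k1)
    (h' : IsEData α u k0' k1') : k0 = k0' ∧ k1 = k1' := by
  have e1 : k1 = k1' := by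
    rcases lt_trichotomy k1 k1' with c | c | c
    · have := h'.before k1 c
      rw [h.at1] at this
      omega
    · exact c
    · have := h.before k1' c
      rw [h'.at1] at this
      omega
  subst e1
  refine ⟨?_, rfl⟩
  rcases lt_trichotomy k0 k0' with c | c | c
  · have := h.between k0' c h'.lt
    rw [h'.at0] at this
    omega
  · exact c
  · have := h'.between k0 c h.lt
    rw [h.at0] at this
    omega

theorem hgt_of_ge (α : RootD n) (u : Word n θ L) (k : ℕ) (hk : θ.length * L ≤ k) :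
    hgt α u k = hgt α u (θ.length * L) := by
  unfold hgt
  rw [vtx_of_ge u k hk]

/-- (F2) vertices after reflecting a block (pure algebra, any word) -/
theorem vtx_reflBlock (α : RootD n) (k0 k1 : ℕ) (h01 : k0 ≤ k1) (u : Word n θ L) (k : ℕ) :
    vtx θ L (reflBlock α k0 k1 u) k =
      vtx θ L u k - (hgt α u (max k0 (min k k1)) - hgt α u k0) • α.vecZ := by
  induction k with
  | zero =>
    rw [vtx_zero, vtx_zero]
    simp
  | succ k ih =>
    by_cases hk : k < θ.length * L
    · rw [vtx_succ _ k hk, vtx_succ u k hk, ih]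
      by_cases hb : k0 ≤ k ∧ k < k1
      · have e1 : reflBlock α k0 k1 u ⟨k, hk⟩ = WD.rmul α (u ⟨k, hk⟩) := if_pos hb
        have e2 : max k0 (min (k + 1) k1) = k + 1 := by omega
        have e3 : max k0 (min k k1) = k := by omega
        rw [e1, e2, e3, actZ_rmul, reflZ, hgt_succ α u k hk]
        funext i
        simp only [Pi.add_apply, Pi.sub_apply, Pi.smul_apply, smul_eq_mul]
        ring
      · have e1 : reflBlock α k0 k1 u ⟨k, hk⟩ = u ⟨k, hk⟩ := if_neg hb
        have e2 : max k0 (min (k + 1) k1) = max k0 (min k k1) := by omega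
        rw [e1, e2]
        funext i
        simp only [Pi.add_apply, Pi.sub_apply, Pi.smul_apply, smul_eq_mul]
        ring
    · rw [vtx_of_ge _ (k + 1) (by omega), vtx_of_ge u (k + 1) (by omega),
        ← vtx_of_ge _ k (by omega), ← vtx_of_ge u k (by omega), ih]
      by_cases hb : k0 ≤ k ∧ k < k1
      · have e2 : max k0 (min (k + 1) k1) = k + 1 := by omega
        have e3 : max k0 (min k k1) = k := by omega
        rw [e2, e3, hgt_of_ge α u (k + 1) (by omega), hgt_of_ge α u k (by omega)]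
      · have e2 : max k0 (min (k + 1) k1) = max k0 (min k k1) := by omega
        rw [e2]

theorem hgt_reflBlock (α : RootD n) (k0 k1 : ℕ) (h01 : k0 ≤ k1) (u : Word n θ L) (k : ℕ) :
    hgt α (reflBlock α k0 k1 u) k =
      hgt α u k - 2 * (hgt α u (max k0 (min k k1)) - hgt α u k0) := by
  unfold hgt
  rw [vtx_reflBlock α k0 k1 h01 u k, dotZ_sub_left, dotZ_smul_left, dotZ_vecZ_self]
  unfold hgt
  ring

/-- consecutive multiples -/
theorem add_le_of_dvd_lt {L a b : ℤ} (ha : L ∣ a) (hb : L ∣ b) (h : a < b) : a + L ≤ b := by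
  by_contra hcon
  exact no_mult_between ha hb h (by omega)

theorem hgt_dvd_iff_right {u : Word n θ L} (hu : IsLS θ L u) (α : RootD n) (k : ℕ)
    (hk : k < θ.length * L) : (L : ℤ) ∣ hgt α u (k + 1) ↔
      (L : ℤ) ∣ dotZ ((u ⟨k, hk⟩).actZ (etaZ θ L (k + 1))) α.vecZ :=
  dvd_iff_dvd_of_dvd_sub (dvd_dotZ_sub (fun i => vtx_congr_right hu k hk i) α)

theorem hgt_dvd_iff_left {u : Word n θ L} (hu : IsLS θ L u) (α : RootD n) (k : ℕ)
    (hk : k < θ.length * L) : (L : ℤ) ∣ hgt α u k ↔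
      (L : ℤ) ∣ dotZ ((u ⟨k, hk⟩).actZ (etaZ θ L k)) α.vecZ :=
  dvd_iff_dvd_of_dvd_sub (dvd_dotZ_sub (fun i => vtx_congr_left hu k hk i) α)

/-- (F2') -/
theorem reflBlock_reflBlock (α : RootD n) (k0 k1 : ℕ) (u : Word n θ L) :
    reflBlock α k0 k1 (reflBlock α k0 k1 u) = u := by
  funext i
  unfold reflBlock
  by_cases hb : k0 ≤ (i : ℕ) ∧ (i : ℕ) < k1
  · simp only [if_pos hb, rmul_rmul]
  · simp only [if_neg hb]

section
variable (hθ : ∀ v ∈ θ, Ty.D.Reg (castV v)) (hL : GoodMod θ L) {α : RootD n} (hα : IsSimpleR α)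
  {u : Word n θ L} (hu : IsLS θ L u)
include hθ hL hα hu

/-- (F1a) [last minimum; first later vertex of height `≥ M + L`; H2, H3] -/
theorem exists_fdata (h : hmin α u + L ≤ hgt α u (θ.length * L)) :
    ∃ k0 k1, IsFData α u k0 k1 := by
  classical
  have hLpos : (0 : ℤ) < L := by
    have := hL.1
    positivity
  obtain ⟨ka, hka, eka⟩ := exists_hmin α u
  -- the last minimum
  let P : ℕ → Prop := fun k => hgt α u k = hmin α u
  let k0 := Nat.findGreatest P (θ.length * L)
  have hk0 : hgt α u k0 = hmin α u := Nat.findGreatest_spec (P := P) hka eka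
  have hk0le : k0 ≤ θ.length * L := Nat.findGreatest_le _
  have hk0lt : k0 < θ.length * L := by
    rcases lt_or_eq_of_le hk0le with c | c
    · exact c
    · rw [c] at hk0
      omega
  have hafter : ∀ k, k0 < k → hmin α u < hgt α u k := by
    intro k hk
    by_cases hkm : k ≤ θ.length * L
    · have h1 : ¬ P k := Nat.findGreatest_is_greatest hk hkm
      have h2 := hmin_le α u k
      exact lt_of_le_of_ne h2 (fun e => h1 e.symm)
    · rw [hgt_of_ge α u k (by omega)]
      omega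
  -- the first later vertex of height `≥ M + L`
  have hex : ∃ k, k0 < k ∧ hmin α u + L ≤ hgt α u k := ⟨θ.length * L, hk0lt, h⟩
  let k1 := Nat.find hex
  have hk1 : k0 < k1 ∧ hmin α u + L ≤ hgt α u k1 := Nat.find_spec hex
  have hk1le : k1 ≤ θ.length * L := Nat.find_min' hex ⟨hk0lt, h⟩
  have hbefore : ∀ k, k0 < k → k < k1 → hgt α u k < hmin α u + L := by
    intro k h1 h2
    by_contra hcon
    exact Nat.find_min hex h2 ⟨h1, by omega⟩
  have hr := run_up hθ hL hα hu (hmin_dvd hθ hL hα hu) hk1.1 hk1le hk0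
    (fun k h1 _ => hafter k h1) hbefore hk1.2
  exact ⟨k0, k1, hk1.1, hk1le, hk0, hafter, hr.1, hbefore⟩

/-- (F1b) [first minimum; last earlier vertex of height `≥ M + L`; H2, H3'] -/
theorem exists_edata (h : hmin α u + L ≤ 0) : ∃ k0 k1, IsEData α u k0 k1 := by
  classical
  have hLpos : (0 : ℤ) < L := by
    have := hL.1
    positivity
  obtain ⟨ka, hka, eka⟩ := exists_hmin α u
  have hex : ∃ k, hgt α u k = hmin α u := ⟨ka, eka⟩
  let k1 := Nat.find hex
  have hk1 : hgt α u k1 = hmin α u := Nat.find_spec hex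
  have hk1le : k1 ≤ θ.length * L := (Nat.find_min' hex eka).trans hka
  have hbefore : ∀ k, k < k1 → hmin α u < hgt α u k := by
    intro k hk
    exact lt_of_le_of_ne (hmin_le α u k) (fun e => Nat.find_min hex hk e.symm)
  have hk1pos : 0 < k1 := by
    rcases Nat.eq_zero_or_pos k1 with c | c
    · rw [c, hgt_zero] at hk1
      omega
    · exact c
  let P : ℕ → Prop := fun k => hmin α u + L ≤ hgt α u k
  let k0 := Nat.findGreatest P (k1 - 1)
  have hk0 : hmin α u + L ≤ hgt α u k0 :=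
    Nat.findGreatest_spec (P := P) (Nat.zero_le _) (by show _ ≤ hgt α u 0; rw [hgt_zero]; exact h)
  have hk0le : k0 ≤ k1 - 1 := Nat.findGreatest_le _
  have hbetween : ∀ k, k0 < k → k < k1 → hgt α u k < hmin α u + L := by
    intro k h1 h2
    have h3 : ¬ P k := Nat.findGreatest_is_greatest h1 (by omega)
    exact not_le.1 h3
  have hr := run_down hθ hL hα hu (hmin_dvd hθ hL hα hu) (k0 := k0) (k1 := k1) (by omega) hk1le hk1
    (fun k _ h2 => hbefore k h2) hbetween hk0
  exact ⟨k0, k1, by omega, hk1le, hk1, hbefore, hr.1, hbetween⟩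

/-- (F1c) after `k1` the height stays `≥ M + L`.  [H5 on `[k1, m]`, G4] -/
theorem fdata_after {k0 k1 : ℕ} (hd : IsFData α u k0 k1) (k : ℕ) (hk : k1 ≤ k) :
    hmin α u + L ≤ hgt α u k := by
  have hM := hmin_dvd hθ hL hα hu
  have key : ∀ k, k1 ≤ k → k ≤ θ.length * L → hmin α u + L ≤ hgt α u k := by
    intro k h1 h2
    obtain ⟨j, hj1, hj2, hmin', hcase⟩ := hgt_interval_min hθ hL hα hu k1 (θ.length * L) hd.le le_rfl
    refine le_trans ?_ (hmin' k h1 h2)
    rcases hcase with rfl | rfl | hdv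
    · rw [hd.at1]
    · refine add_le_of_dvd_lt hM ?_ (hd.after _ (by have := hd.lt; omega))
      unfold hgt
      rw [dotZ_vecZ]
      exact dvd_add (Dvd.dvd.mul_left (vtx_end_dvd hu _) _) (Dvd.dvd.mul_left (vtx_end_dvd hu _) _)
    · exact add_le_of_dvd_lt hM hdv (hd.after _ (by have := hd.lt; omega))
  by_cases hkm : k ≤ θ.length * L
  · exact key k hk hkm
  · rw [hgt_of_ge α u k (by omega)]
    exact key _ hd.le le_rfl

/-- (F1d) before `k0` the height stays `≥ M + L`.  [H5 on `[0, k0]`] -/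
theorem edata_before {k0 k1 : ℕ} (hd : IsEData α u k0 k1) (k : ℕ) (hk : k ≤ k0) :
    hmin α u + L ≤ hgt α u k := by
  have hM := hmin_dvd hθ hL hα hu
  obtain ⟨j, _, hj2, hmin', hcase⟩ := hgt_interval_min hθ hL hα hu 0 k0 (Nat.zero_le _)
    (by have := hd.lt; have := hd.le; omega)
  refine le_trans ?_ (hmin' k (Nat.zero_le _) hk)
  rcases hcase with rfl | rfl | hdv
  · refine add_le_of_dvd_lt hM ?_ (hd.before _ (by have := hd.lt; omega))
    rw [hgt_zero]
    simp
  · rw [hd.at0]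
  · exact add_le_of_dvd_lt hM hdv (hd.before _ (by have := hd.lt; omega))

/-- (F3) `f_α u` is an LS word.  Links: at `k1` LK-C, inside LK-B, at `k0` LK-A, elsewhere unchanged. -/
theorem isLS_reflBlock_f {k0 k1 : ℕ} (hd : IsFData α u k0 k1) :
    IsLS θ L (reflBlock α k0 k1 u) := by
  have hM := hmin_dvd hθ hL hα hu
  have hr := run_up hθ hL hα hu hM hd.lt hd.le hd.at0 (fun k h1 _ => hd.after k h1) hd.before
    (by rw [hd.at1])
  intro i j hij
  have hlink := hu i j hij
  obtain ⟨i, hi⟩ := i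
  obtain ⟨j, hj⟩ := j
  simp only at hij
  subst hij
  simp only at hlink ⊢
  by_cases c1 : k0 ≤ i ∧ i < k1 <;> by_cases c2 : k0 ≤ i + 1 ∧ i + 1 < k1
  · -- inside the block
    have e1 : reflBlock α k0 k1 u ⟨i, hi⟩ = WD.rmul α (u ⟨i, hi⟩) := if_pos c1
    have e2 : reflBlock α k0 k1 u ⟨i + 1, hj⟩ = WD.rmul α (u ⟨i + 1, hj⟩) := if_pos c2
    rw [e1, e2]
    have p1 := hr.2 i hi c1.1 c1.2
    have p2 := hr.2 (i + 1) hj c2.1 c2.2
    refine linked_translate hα hlink (by tauto) ?_
    rw [← hgt_dvd_iff_right hu α i hi]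
    intro hdv
    exact no_mult_between hM hdv (hd.after _ (by omega)) (hd.before _ (by omega) c2.2)
  · -- the right end of the block
    have e1 : reflBlock α k0 k1 u ⟨i, hi⟩ = WD.rmul α (u ⟨i, hi⟩) := if_pos c1
    have e2 : reflBlock α k0 k1 u ⟨i + 1, hj⟩ = u ⟨i + 1, hj⟩ := if_neg c2
    rw [e1, e2]
    have p1 := hr.2 i hi c1.1 c1.2
    have ek : i + 1 = k1 := by omega
    refine linked_prepend hα p1 ?_ hlink
    rw [← hgt_dvd_iff_right hu α i hi, ek, hd.at1]
    exact dvd_add hM dvd_rfl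
  · -- the left end of the block
    have e1 : reflBlock α k0 k1 u ⟨i, hi⟩ = u ⟨i, hi⟩ := if_neg c1
    have e2 : reflBlock α k0 k1 u ⟨i + 1, hj⟩ = WD.rmul α (u ⟨i + 1, hj⟩) := if_pos c2
    rw [e1, e2]
    have ek : i + 1 = k0 := by omega
    have p2 := hr.2 (i + 1) hj c2.1 c2.2
    have p1 : ANeg α (u ⟨i, hi⟩) := by
      by_contra hcon
      have := (hgt_succ_lt_iff hθ hL α u i hi).2.2 hcon
      rw [ek, hd.at0] at this
      have := hmin_le α u i
      omega
    exact linked_neg_pos_left hα hlink p1 p2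
  · have e1 : reflBlock α k0 k1 u ⟨i, hi⟩ = u ⟨i, hi⟩ := if_neg c1
    have e2 : reflBlock α k0 k1 u ⟨i + 1, hj⟩ = u ⟨i + 1, hj⟩ := if_neg c2
    rw [e1, e2]
    exact hlink

/-- (F4) `e_α u` is an LS word.  Links: at `k0` LK-D, inside LK-B, at `k1` LK-E. -/
theorem isLS_reflBlock_e {k0 k1 : ℕ} (hd : IsEData α u k0 k1) :
    IsLS θ L (reflBlock α k0 k1 u) := by
  have hM := hmin_dvd hθ hL hα hu
  have hr := run_down hθ hL hα hu hM hd.lt hd.le hd.at1 (fun k _ h2 => hd.before k h2) hd.between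
    (by rw [hd.at0])
  intro i j hij
  have hlink := hu i j hij
  obtain ⟨i, hi⟩ := i
  obtain ⟨j, hj⟩ := j
  simp only at hij
  subst hij
  simp only at hlink ⊢
  by_cases c1 : k0 ≤ i ∧ i < k1 <;> by_cases c2 : k0 ≤ i + 1 ∧ i + 1 < k1
  · -- inside the block
    have e1 : reflBlock α k0 k1 u ⟨i, hi⟩ = WD.rmul α (u ⟨i, hi⟩) := if_pos c1
    have e2 : reflBlock α k0 k1 u ⟨i + 1, hj⟩ = WD.rmul α (u ⟨i + 1, hj⟩) := if_pos c2
    rw [e1, e2]
    have p1 := hr.2 i hi c1.1 c1.2
    have p2 := hr.2 (i + 1) hj c2.1 c2.2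
    refine linked_translate hα hlink (by tauto) ?_
    rw [← hgt_dvd_iff_right hu α i hi]
    intro hdv
    exact no_mult_between hM hdv (hd.before _ c2.2) (hd.between _ (by omega) c2.2)
  · -- the right end of the block
    have e1 : reflBlock α k0 k1 u ⟨i, hi⟩ = WD.rmul α (u ⟨i, hi⟩) := if_pos c1
    have e2 : reflBlock α k0 k1 u ⟨i + 1, hj⟩ = u ⟨i + 1, hj⟩ := if_neg c2
    rw [e1, e2]
    have p1 := hr.2 i hi c1.1 c1.2
    have ek : i + 1 = k1 := by omega
    have p2 : ¬ ANeg α (u ⟨i + 1, hj⟩) := by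
      intro hcon
      have := (hgt_succ_lt_iff hθ hL α u (i + 1) hj).1.2 hcon
      rw [ek, hd.at1] at this
      have := hmin_le α u (k1 + 1)
      omega
    exact linked_neg_pos_right hα hlink p1 p2
  · -- the left end of the block
    have e1 : reflBlock α k0 k1 u ⟨i, hi⟩ = u ⟨i, hi⟩ := if_neg c1
    have e2 : reflBlock α k0 k1 u ⟨i + 1, hj⟩ = WD.rmul α (u ⟨i + 1, hj⟩) := if_pos c2
    rw [e1, e2]
    have ek : i + 1 = k0 := by omega
    have p2 := hr.2 (i + 1) hj c2.1 c2.2
    refine linked_append hα p2 ?_ hlink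
    rw [← hgt_dvd_iff_left hu α (i + 1) hj, ek, hd.at0]
    exact dvd_add hM dvd_rfl
  · have e1 : reflBlock α k0 k1 u ⟨i, hi⟩ = u ⟨i, hi⟩ := if_neg c1
    have e2 : reflBlock α k0 k1 u ⟨i + 1, hj⟩ = u ⟨i + 1, hj⟩ := if_neg c2
    rw [e1, e2]
    exact hlink

/-- (F5a) [F2, F1c] -/
theorem fdata_edata {k0 k1 : ℕ} (hd : IsFData α u k0 k1) :
    IsEData α (reflBlock α k0 k1 u) k0 k1 ∧ hmin α (reflBlock α k0 k1 u) = hmin α u - L := by
  have hLpos : (0 : ℤ) < L := by
    have := hL.1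
    positivity
  have hlt := hd.lt
  -- the new heights
  have H := hgt_reflBlock α k0 k1 hd.lt.le u
  have h1 : ∀ k, k ≤ k0 → hgt α (reflBlock α k0 k1 u) k = hgt α u k := by
    intro k hk
    rw [H, show max k0 (min k k1) = k0 by omega]
    ring
  have h2 : ∀ k, k0 ≤ k → k ≤ k1 → hgt α (reflBlock α k0 k1 u) k = 2 * hmin α u - hgt α u k := by
    intro k hk hk'
    rw [H, show max k0 (min k k1) = k by omega, hd.at0]
    ring
  have h3 : ∀ k, k1 ≤ k → hgt α (reflBlock α k0 k1 u) k = hgt α u k - 2 * L := by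
    intro k hk
    rw [H, show max k0 (min k k1) = k1 by omega, hd.at0, hd.at1]
    ring
  have hlow : ∀ k, k < k1 → hmin α u - L < hgt α (reflBlock α k0 k1 u) k := by
    intro k hk
    by_cases c : k ≤ k0
    · rw [h1 k c]
      have := hmin_le α u k
      omega
    · rw [h2 k (by omega) hk.le]
      have := hd.before k (by omega) hk
      omega
  have hall : ∀ k, hmin α u - L ≤ hgt α (reflBlock α k0 k1 u) k := by
    intro k
    by_cases c : k < k1
    · exact (hlow k c).le
    · rw [h3 k (by omega)]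
      have := fdata_after hθ hL hα hu hd k (by omega)
      omega
  have hk1 : hgt α (reflBlock α k0 k1 u) k1 = hmin α u - L := by
    rw [h3 k1 le_rfl, hd.at1]
    ring
  have hmin' : hmin α (reflBlock α k0 k1 u) = hmin α u - L := by
    obtain ⟨k, _, ek⟩ := exists_hmin α (reflBlock α k0 k1 u)
    apply le_antisymm
    · rw [← hk1]
      exact hmin_le _ _ _
    · rw [← ek]
      exact hall k
  refine ⟨⟨hd.lt, hd.le, ?_, ?_, ?_, ?_⟩, hmin'⟩
  · rw [hmin', hk1]
  · intro k hk
    rw [hmin']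
    exact hlow k hk
  · rw [hmin', h1 k0 le_rfl, hd.at0]
    ring
  · intro k hk hk'
    rw [hmin', h2 k hk.le hk'.le]
    have := hd.after k hk
    omega

/-- (F5b) [F2, F1d] -/
theorem edata_fdata {k0 k1 : ℕ} (hd : IsEData α u k0 k1) :
    IsFData α (reflBlock α k0 k1 u) k0 k1 ∧ hmin α (reflBlock α k0 k1 u) = hmin α u + L := by
  have hLpos : (0 : ℤ) < L := by
    have := hL.1
    positivity
  have hlt := hd.lt
  have H := hgt_reflBlock α k0 k1 hd.lt.le u
  have h1 : ∀ k, k ≤ k0 → hgt α (reflBlock α k0 k1 u) k = hgt α u k := by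
    intro k hk
    rw [H, show max k0 (min k k1) = k0 by omega]
    ring
  have h2 : ∀ k, k0 ≤ k → k ≤ k1 →
      hgt α (reflBlock α k0 k1 u) k = 2 * (hmin α u + L) - hgt α u k := by
    intro k hk hk'
    rw [H, show max k0 (min k k1) = k by omega, hd.at0]
    ring
  have h3 : ∀ k, k1 ≤ k → hgt α (reflBlock α k0 k1 u) k = hgt α u k + 2 * L := by
    intro k hk
    rw [H, show max k0 (min k k1) = k1 by omega, hd.at0, hd.at1]
    ring
  have hhigh : ∀ k, k0 < k → hmin α u + L < hgt α (reflBlock α k0 k1 u) k := by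
    intro k hk
    by_cases c : k < k1
    · rw [h2 k hk.le c.le]
      have := hd.between k hk c
      omega
    · rw [h3 k (by omega)]
      have := hmin_le α u k
      omega
  have hall : ∀ k, hmin α u + L ≤ hgt α (reflBlock α k0 k1 u) k := by
    intro k
    by_cases c : k ≤ k0
    · rw [h1 k c]
      exact edata_before hθ hL hα hu hd k c
    · exact (hhigh k (by omega)).le
  have hk0 : hgt α (reflBlock α k0 k1 u) k0 = hmin α u + L := by
    rw [h1 k0 le_rfl, hd.at0]
  have hmin' : hmin α (reflBlock α k0 k1 u) = hmin α u + L := by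
    obtain ⟨k, _, ek⟩ := exists_hmin α (reflBlock α k0 k1 u)
    apply le_antisymm
    · rw [← hk0]
      exact hmin_le _ _ _
    · rw [← ek]
      exact hall k
  refine ⟨⟨hd.lt, hd.le, ?_, ?_, ?_, ?_⟩, hmin'⟩
  · rw [hmin', hk0]
  · intro k hk
    rw [hmin']
    exact hhigh k hk
  · rw [hmin', h3 k1 le_rfl, hd.at1]
    ring
  · intro k hk hk'
    rw [hmin', h2 k hk.le hk'.le]
    have := hd.before k hk'
    omega

end

/-! ## the operators as total functions -/

open Classical in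
noncomputable def fOp (α : RootD n) (u : Word n θ L) : Word n θ L :=
  if h : ∃ p : ℕ × ℕ, IsFData α u p.1 p.2 then reflBlock α h.choose.1 h.choose.2 u else u

open Classical in
noncomputable def eOp (α : RootD n) (u : Word n θ L) : Word n θ L :=
  if h : ∃ p : ℕ × ℕ, IsEData α u p.1 p.2 then reflBlock α h.choose.1 h.choose.2 u else u

theorem fOp_eq_of_data {α : RootD n} {u : Word n θ L} {k0 k1 : ℕ} (hd : IsFData α u k0 k1) :
    fOp α u = reflBlock α k0 k1 u := by
  have h : ∃ p : ℕ × ℕ, IsFData α u p.1 p.2 := ⟨(k0, k1), hd⟩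
  unfold fOp
  rw [dif_pos h]
  obtain ⟨e1, e2⟩ := fdata_unique h.choose_spec hd
  rw [e1, e2]

theorem eOp_eq_of_data {α : RootD n} {u : Word n θ L} {k0 k1 : ℕ} (hd : IsEData α u k0 k1) :
    eOp α u = reflBlock α k0 k1 u := by
  have h : ∃ p : ℕ × ℕ, IsEData α u p.1 p.2 := ⟨(k0, k1), hd⟩
  unfold eOp
  rw [dif_pos h]
  obtain ⟨e1, e2⟩ := edata_unique h.choose_spec hd
  rw [e1, e2]

theorem fOp_cases (α : RootD n) (u : Word n θ L) :
    fOp α u = u ∨ ∃ k0 k1, IsFData α u k0 k1 ∧ fOp α u = reflBlock α k0 k1 u := by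
  by_cases h : ∃ p : ℕ × ℕ, IsFData α u p.1 p.2
  · obtain ⟨p, hp⟩ := h
    exact Or.inr ⟨p.1, p.2, hp, fOp_eq_of_data hp⟩
  · left
    unfold fOp
    rw [dif_neg h]

theorem eOp_cases (α : RootD n) (u : Word n θ L) :
    eOp α u = u ∨ ∃ k0 k1, IsEData α u k0 k1 ∧ eOp α u = reflBlock α k0 k1 u := by
  by_cases h : ∃ p : ℕ × ℕ, IsEData α u p.1 p.2
  · obtain ⟨p, hp⟩ := h
    exact Or.inr ⟨p.1, p.2, hp, eOp_eq_of_data hp⟩
  · left
    unfold eOp
    rw [dif_neg h]

/-- `ε = - M / L` -/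
def epsN (α : RootD n) (u : Word n θ L) : ℕ := (- hmin α u / (L : ℤ)).toNat

/-- `φ = (h_m - M) / L` -/
def phiN (α : RootD n) (u : Word n θ L) : ℕ :=
  ((hgt α u (θ.length * L) - hmin α u) / (L : ℤ)).toNat

section
variable (hθ : ∀ v ∈ θ, Ty.D.Reg (castV v)) (hL : GoodMod θ L) {α : RootD n} (hα : IsSimpleR α)
  {u : Word n θ L} (hu : IsLS θ L u)
include hθ hL hα hu

/-- (CR0) -/
theorem eps_phi_spec : hmin α u = - ((L : ℤ) * epsN α u) ∧
    hgt α u (θ.length * L) = (L : ℤ) * phiN α u - (L : ℤ) * epsN α u := by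
  have hLpos : (0 : ℤ) < L := by
    have := hL.1
    positivity
  obtain ⟨a, ha⟩ := hmin_dvd hθ hL hα hu
  have hm0 : hmin α u ≤ 0 := by
    have := hmin_le α u 0
    rwa [hgt_zero] at this
  have hend : (L : ℤ) ∣ hgt α u (θ.length * L) := by
    unfold hgt
    rw [dotZ_vecZ]
    exact dvd_add (Dvd.dvd.mul_left (vtx_end_dvd hu _) _) (Dvd.dvd.mul_left (vtx_end_dvd hu _) _)
  obtain ⟨b, hb⟩ := hend
  have hmb := hmin_le α u (θ.length * L)
  have ha0 : a ≤ 0 := by
    by_contra hcon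
    have : 0 < (L : ℤ) * a := mul_pos hLpos (by omega)
    omega
  have hab : a ≤ b := by
    rw [ha, hb] at hmb
    exact le_of_mul_le_mul_left hmb hLpos
  have e1 : (epsN α u : ℤ) = -a := by
    unfold epsN
    rw [ha, show -((L : ℤ) * a) = (L : ℤ) * (-a) by ring, Int.mul_ediv_cancel_left _ hLpos.ne']
    exact Int.toNat_of_nonneg (by omega)
  have e2 : (phiN α u : ℤ) = b - a := by
    unfold phiN
    rw [ha, hb, show (L : ℤ) * b - (L : ℤ) * a = (L : ℤ) * (b - a) by ring,
      Int.mul_ediv_cancel_left _ hLpos.ne']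
    exact Int.toNat_of_nonneg (by omega)
  rw [e1, e2, ha, hb]
  constructor <;> ring

/-- (CR1) -/
theorem fOp_isLS : IsLS θ L (fOp α u) := by
  rcases fOp_cases α u with e | ⟨k0, k1, hd, e⟩
  · rw [e]
    exact hu
  · rw [e]
    exact isLS_reflBlock_f hθ hL hα hu hd

/-- (CR1') -/
theorem eOp_isLS : IsLS θ L (eOp α u) := by
  rcases eOp_cases α u with e | ⟨k0, k1, hd, e⟩
  · rw [e]
    exact hu
  · rw [e]
    exact isLS_reflBlock_e hθ hL hα hu hd

/-- (CR2) -/
theorem fOp_spec (h : 1 ≤ phiN α u) :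
    epsN α (fOp α u) = epsN α u + 1 ∧ phiN α (fOp α u) + 1 = phiN α u ∧ eOp α (fOp α u) = u ∧
      vtx θ L (fOp α u) (θ.length * L) = vtx θ L u (θ.length * L) - (L : ℤ) • α.vecZ := by
  have hLpos : (0 : ℤ) < L := by
    have := hL.1
    positivity
  obtain ⟨s1, s2⟩ := eps_phi_spec hθ hL hα hu
  have hphi : (1 : ℤ) ≤ phiN α u := by exact_mod_cast h
  obtain ⟨k0, k1, hd⟩ := exists_fdata hθ hL hα hu (by
    rw [s1, s2]
    nlinarith)
  have ef := fOp_eq_of_data hd
  obtain ⟨hE, hmin'⟩ := fdata_edata hθ hL hα hu hd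
  have hu' := isLS_reflBlock_f hθ hL hα hu hd
  obtain ⟨t1, t2⟩ := eps_phi_spec hθ hL hα hu'
  have hend : vtx θ L (reflBlock α k0 k1 u) (θ.length * L)
      = vtx θ L u (θ.length * L) - (L : ℤ) • α.vecZ := by
    rw [vtx_reflBlock α k0 k1 hd.lt.le u, show max k0 (min (θ.length * L) k1) = k1 by
      have := hd.lt; have := hd.le; omega, hd.at0, hd.at1]
    congr 2
    ring
  have hendh : hgt α (reflBlock α k0 k1 u) (θ.length * L) = hgt α u (θ.length * L) - 2 * L := by
    unfold hgt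
    rw [hend, dotZ_sub_left, dotZ_smul_left, dotZ_vecZ_self]
    ring
  rw [ef]
  have a1 : (epsN α (reflBlock α k0 k1 u) : ℤ) = epsN α u + 1 := by
    have : (L : ℤ) * (epsN α (reflBlock α k0 k1 u) : ℤ) = (L : ℤ) * (epsN α u + 1) := by
      rw [hmin', s1] at t1
      linarith
    exact mul_left_cancel₀ hLpos.ne' this
  have a2 : (phiN α (reflBlock α k0 k1 u) : ℤ) + 1 = phiN α u := by
    have : (L : ℤ) * ((phiN α (reflBlock α k0 k1 u) : ℤ) + 1) = (L : ℤ) * phiN α u := by
      rw [hendh, s2, a1] at t2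
      linarith
    exact mul_left_cancel₀ hLpos.ne' this
  refine ⟨by exact_mod_cast a1, by exact_mod_cast a2, ?_, hend⟩
  rw [eOp_eq_of_data hE, reflBlock_reflBlock]

/-- (CR3) -/
theorem eOp_spec (h : 1 ≤ epsN α u) :
    epsN α (eOp α u) + 1 = epsN α u ∧ phiN α (eOp α u) = phiN α u + 1 ∧ fOp α (eOp α u) = u ∧
      vtx θ L (eOp α u) (θ.length * L) = vtx θ L u (θ.length * L) + (L : ℤ) • α.vecZ := by
  have hLpos : (0 : ℤ) < L := by
    have := hL.1
    positivity
  obtain ⟨s1, s2⟩ := eps_phi_spec hθ hL hα hu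
  have heps : (1 : ℤ) ≤ epsN α u := by exact_mod_cast h
  obtain ⟨k0, k1, hd⟩ := exists_edata hθ hL hα hu (by
    rw [s1]
    nlinarith)
  have ef := eOp_eq_of_data hd
  obtain ⟨hF, hmin'⟩ := edata_fdata hθ hL hα hu hd
  have hu' := isLS_reflBlock_e hθ hL hα hu hd
  obtain ⟨t1, t2⟩ := eps_phi_spec hθ hL hα hu'
  have hend : vtx θ L (reflBlock α k0 k1 u) (θ.length * L)
      = vtx θ L u (θ.length * L) + (L : ℤ) • α.vecZ := by
    rw [vtx_reflBlock α k0 k1 hd.lt.le u, show max k0 (min (θ.length * L) k1) = k1 by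
      have := hd.lt; have := hd.le; omega, hd.at0, hd.at1,
      show hmin α u - (hmin α u + (L : ℤ)) = -(L : ℤ) by ring, neg_smul, sub_neg_eq_add]
  have hendh : hgt α (reflBlock α k0 k1 u) (θ.length * L) = hgt α u (θ.length * L) + 2 * L := by
    unfold hgt
    rw [hend, dotZ_add_left, dotZ_smul_left, dotZ_vecZ_self]
    ring
  rw [ef]
  have a1 : (epsN α (reflBlock α k0 k1 u) : ℤ) + 1 = epsN α u := by
    have : (L : ℤ) * ((epsN α (reflBlock α k0 k1 u) : ℤ) + 1) = (L : ℤ) * epsN α u := by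
      rw [hmin', s1] at t1
      linarith
    exact mul_left_cancel₀ hLpos.ne' this
  have a2 : (phiN α (reflBlock α k0 k1 u) : ℤ) = phiN α u + 1 := by
    have : (L : ℤ) * (phiN α (reflBlock α k0 k1 u) : ℤ) = (L : ℤ) * (phiN α u + 1) := by
      rw [hendh, s2] at t2
      have : (L : ℤ) * (epsN α (reflBlock α k0 k1 u) : ℤ) = (L : ℤ) * (epsN α u - 1) := by
        rw [← a1]
        ring
      linarith
    exact mul_left_cancel₀ hLpos.ne' this
  refine ⟨by exact_mod_cast a1, by exact_mod_cast a2, ?_, hend⟩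
  rw [fOp_eq_of_data hF, reflBlock_reflBlock]

/-- (CR5f) locality of `f_α`: the letters before the first vertex of minimal height do not change -/
theorem fOp_agree (K : ℕ) (hK : ∀ k, k < K → hmin α u < hgt α u k) (i : Fin (θ.length * L))
    (hi : (i : ℕ) < K) : fOp α u i = u i := by
  rcases fOp_cases α u with e | ⟨k0, k1, hd, e⟩
  · rw [e]
  · rw [e]
    have hk0 : K ≤ k0 := by
      by_contra hcon
      have := hK k0 (by omega)
      rw [hd.at0] at this
      omega
    exact if_neg (by omega)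

/-- (CR5e) locality of `e_α`: the letters before the first vertex of height `≤ M + L` do not change -/
theorem eOp_agree (K : ℕ) (hK : ∀ k, k < K → hmin α u + L < hgt α u k) (i : Fin (θ.length * L))
    (hi : (i : ℕ) < K) : eOp α u i = u i := by
  rcases eOp_cases α u with e | ⟨k0, k1, hd, e⟩
  · rw [e]
  · rw [e]
    have hk0 : K ≤ k0 := by
      by_contra hcon
      have := hK k0 (by omega)
      rw [hd.at0] at this
      omega
    exact if_neg (by omega)

end

end Claimed.Agent.R282
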