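import Claimed.Agent.R282.S2AB.PM.Defs

/-!
# Package PM, layer W: the group `W(D_n)` acting on `ℤ^n`

All later layers use ONLY the statements of this file (never unfold signed permutations).
Every leaf here is an elementary computation with `Equiv.swap`, `Bool.xor`, `Finset.sum`.
-/

set_option autoImplicit false

namespace Claimed.Agent.R282

variable {n : ℕ}

/-- reflection on integral vectors -/
def reflZ (β : RootD n) (x : Fin n → ℤ) : Fin n → ℤ := x - dotZ x β.vecZ • β.vecZ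

/-! ## group structure -/

def WD.mulS (u v : WD n) : Fin n → Bool := fun k => xor (u.s k) (v.s (u.σ.symm k))

def WD.invS (u : WD n) : Fin n → Bool := fun k => u.s (u.σ k)

/-- (W0a) parity of the number of signs is additive -/
theorem WD.mul_even (u v : WD n) :
    Even (Finset.univ.filter fun k => WD.mulS u v k = true).card := by
  rw [even_card_iff_prod_sgnZ]
  unfold WD.mulS
  simp only [sgnZ_xor]
  rw [Finset.prod_mul_distrib, Equiv.prod_comp u.σ.symm (fun k => sgnZ (v.s k)),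
    WD.prod_sgnZ, WD.prod_sgnZ, mul_one]

/-- (W0b) -/
theorem WD.inv_even (u : WD n) : Even (Finset.univ.filter fun k => WD.invS u k = true).card := by
  rw [even_card_iff_prod_sgnZ]
  unfold WD.invS
  rw [Equiv.prod_comp u.σ (fun k => sgnZ (u.s k)), WD.prod_sgnZ]

instance : Mul (WD n) := ⟨fun u v => ⟨u.σ * v.σ, WD.mulS u v, WD.mul_even u v⟩⟩

instance : One (WD n) := ⟨⟨1, fun _ => false, by simp⟩⟩

instance : Inv (WD n) := ⟨fun u => ⟨u.σ⁻¹, WD.invS u, WD.inv_even u⟩⟩

/-- (W0c) extensionality -/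
theorem WD.ext' {u v : WD n} (h1 : u.σ = v.σ) (h2 : u.s = v.s) : u = v := by
  cases u; cases v; simp_all

/-- (W0d) -/
theorem WD.mul_assoc' (u v w : WD n) : u * v * w = u * (v * w) := by
  apply WD.ext'
  · exact mul_assoc _ _ _
  · funext k
    show xor (xor (u.s k) (v.s (u.σ.symm k))) (w.s ((u.σ * v.σ).symm k))
      = xor (u.s k) (xor (v.s (u.σ.symm k)) (w.s (v.σ.symm (u.σ.symm k))))
    rw [Bool.xor_assoc]
    rfl

/-- (W0e) -/
theorem WD.one_mul' (u : WD n) : 1 * u = u := by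
  apply WD.ext'
  · exact one_mul _
  · funext k
    show xor false (u.s k) = u.s k
    simp

/-- (W0f) -/
theorem WD.inv_mul' (u : WD n) : u⁻¹ * u = 1 := by
  apply WD.ext'
  · exact inv_mul_cancel _
  · funext k
    show xor (u.s (u.σ k)) (u.s (u.σ k)) = false
    simp

instance : Group (WD n) := Group.ofLeftAxioms WD.mul_assoc' WD.one_mul' WD.inv_mul'

/-- determinant (`= sign σ`, the number of sign changes being even) -/
def WD.det (u : WD n) : ℤ := ((Equiv.Perm.sign u.σ : ℤˣ) : ℤ)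

/-- (W0g) -/
theorem WD.finite (n : ℕ) : Finite (WD n) := by
  apply Finite.of_injective (fun u : WD n => (u.σ, u.s))
  intro u v h
  simp only [Prod.mk.injEq] at h
  exact WD.ext' h.1 h.2

noncomputable instance : Fintype (WD n) := @Fintype.ofFinite _ (WD.finite n)

/-! ## the action -/

/-- (W1a) -/
theorem actZ_mul (u v : WD n) (x : Fin n → ℤ) : (u * v).actZ x = u.actZ (v.actZ x) := by
  funext i
  show sgnZ (xor (u.s i) (v.s (u.σ.symm i))) * x (v.σ.symm (u.σ.symm i))
    = sgnZ (u.s i) * (sgnZ (v.s (u.σ.symm i)) * x (v.σ.symm (u.σ.symm i)))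
  rw [sgnZ_xor, mul_assoc]

/-- (W1b) -/
theorem actZ_one (x : Fin n → ℤ) : (1 : WD n).actZ x = x := by
  funext i
  show sgnZ false * x i = x i
  simp [sgnZ]

theorem dotZ_vecZ (x : Fin n → ℤ) (β : RootD n) :
    dotZ x β.vecZ = sgnZ β.si * x β.i + sgnZ β.sj * x β.j := by
  unfold dotZ RootD.vecZ
  simp only [mul_add, mul_ite, mul_zero, Finset.sum_add_distrib, Finset.sum_ite_eq',
    Finset.mem_univ, if_true]
  ring

theorem dotZ_comm (x y : Fin n → ℤ) : dotZ x y = dotZ y x := by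
  unfold dotZ
  exact Finset.sum_congr rfl fun i _ => mul_comm _ _

theorem dotZ_add_left (x y z : Fin n → ℤ) : dotZ (x + y) z = dotZ x z + dotZ y z := by
  unfold dotZ
  simp [add_mul, Finset.sum_add_distrib]

theorem dotZ_add_right (x y z : Fin n → ℤ) : dotZ x (y + z) = dotZ x y + dotZ x z := by
  unfold dotZ
  simp [mul_add, Finset.sum_add_distrib]

theorem dotZ_sub_left (x y z : Fin n → ℤ) : dotZ (x - y) z = dotZ x z - dotZ y z := by
  unfold dotZ
  simp [sub_mul, Finset.sum_sub_distrib]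

theorem dotZ_sub_right (x y z : Fin n → ℤ) : dotZ x (y - z) = dotZ x y - dotZ x z := by
  unfold dotZ
  simp [mul_sub, Finset.sum_sub_distrib]

theorem dotZ_smul_left (c : ℤ) (x y : Fin n → ℤ) : dotZ (c • x) y = c * dotZ x y := by
  unfold dotZ
  simp [Finset.mul_sum, mul_assoc]

theorem dotZ_smul_right (c : ℤ) (x y : Fin n → ℤ) : dotZ x (c • y) = c * dotZ x y := by
  unfold dotZ
  simp only [Pi.smul_apply, smul_eq_mul, Finset.mul_sum]
  exact Finset.sum_congr rfl fun i _ => by ring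

theorem dotZ_neg_left (x y : Fin n → ℤ) : dotZ (-x) y = - dotZ x y := by
  unfold dotZ
  simp

theorem dotZ_neg_right (x y : Fin n → ℤ) : dotZ x (-y) = - dotZ x y := by
  unfold dotZ
  simp

theorem dotZ_zero_left (y : Fin n → ℤ) : dotZ 0 y = 0 := by
  unfold dotZ
  simp

theorem dotZ_zero_right (y : Fin n → ℤ) : dotZ y 0 = 0 := by
  unfold dotZ
  simp

/-- (W1c) -/
theorem actZ_rmul (β : RootD n) (u : WD n) (x : Fin n → ℤ) :
    (WD.rmul β u).actZ x = reflZ β (u.actZ x) := by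
  funext k
  show sgnZ (xor (decide (β.si = β.sj) && (decide (k = β.i) || decide (k = β.j)))
      (u.s (Equiv.swap β.i β.j k))) * x (u.σ.symm ((Equiv.swap β.i β.j).symm k))
    = u.actZ x k - dotZ (u.actZ x) β.vecZ * β.vecZ k
  rw [dotZ_vecZ, sgnZ_xor, Equiv.symm_swap, mul_assoc]
  change _ * (u.actZ x (Equiv.swap β.i β.j k)) = _
  generalize u.actZ x = y
  have hne := β.ne
  by_cases h1 : k = β.i
  · subst h1
    rw [Equiv.swap_apply_left]
    have : β.vecZ β.i = sgnZ β.si := by simp [RootD.vecZ, hne]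
    rw [this]
    rcases β.si with _ | _ <;> rcases β.sj with _ | _ <;> simp [sgnZ]
  · by_cases h2 : k = β.j
    · subst h2
      rw [Equiv.swap_apply_right]
      have : β.vecZ β.j = sgnZ β.sj := by simp [RootD.vecZ, hne.symm]
      rw [this]
      rcases β.si with _ | _ <;> rcases β.sj with _ | _ <;> simp [sgnZ]
    · rw [Equiv.swap_apply_of_ne_of_ne h1 h2]
      simp [RootD.vecZ, h1, h2, sgnZ]

/-- (W1d) the action is faithful -/
theorem actZ_injective {u v : WD n} (h : ∀ x, u.actZ x = v.actZ x) : u = v := by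
  have key : ∀ i, u.σ.symm i = v.σ.symm i ∧ u.s i = v.s i := by
    intro i
    have h1 := congrFun (h (Pi.single (u.σ.symm i) 1)) i
    simp only [WD.actZ, Pi.single_eq_same, mul_one] at h1
    by_cases h2 : v.σ.symm i = u.σ.symm i
    · refine ⟨h2.symm, ?_⟩
      rw [h2] at h1
      simp only [Pi.single_eq_same, mul_one] at h1
      revert h1
      cases u.s i <;> cases v.s i <;> simp [sgnZ]
    · rw [Pi.single_eq_of_ne h2] at h1
      exfalso
      revert h1
      cases u.s i <;> simp [sgnZ]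
  apply WD.ext'
  · have : u.σ.symm = v.σ.symm := Equiv.ext fun i => (key i).1
    simpa using congrArg Equiv.symm this
  · funext i
    exact (key i).2

/-- (W1e) -/
theorem dotZ_actZ (u : WD n) (x y : Fin n → ℤ) : dotZ (u.actZ x) (u.actZ y) = dotZ x y := by
  unfold dotZ WD.actZ
  rw [← Equiv.sum_comp u.σ]
  refine Finset.sum_congr rfl fun i _ => ?_
  simp only [Equiv.symm_apply_apply]
  have := sgnZ_mul_self (u.s (u.σ i))
  calc sgnZ (u.s (u.σ i)) * x i * (sgnZ (u.s (u.σ i)) * y i)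
      = (sgnZ (u.s (u.σ i)) * sgnZ (u.s (u.σ i))) * (x i * y i) := by ring
    _ = x i * y i := by rw [this, one_mul]

/-- (W1f) -/
theorem actZ_add (u : WD n) (x y : Fin n → ℤ) : u.actZ (x + y) = u.actZ x + u.actZ y := by
  funext i
  simp [WD.actZ, mul_add]

/-- (W1g) -/
theorem actZ_smul (u : WD n) (c : ℤ) (x : Fin n → ℤ) : u.actZ (c • x) = c • u.actZ x := by
  funext i
  simp only [WD.actZ, Pi.smul_apply, smul_eq_mul]
  ring

/-- (W1h) compatibility with the real action and with `Def_0456` -/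
theorem castV_actZ (u : WD n) (x : Fin n → ℤ) : castV (u.actZ x) = u.act (castV x) := by
  funext i
  simp only [castV, WD.actZ, WD.act, Int.cast_mul]
  congr 1
  cases u.s i <;> simp [sgnZ, sgnB]

/-- (W1i) -/
theorem actZ_eq_signedPermAct (u : WD n) (x : Fin n → ℤ) :
    u.actZ x = Claims.C0456.signedPermAct u.σ u.s x := by
  rfl

/-- (W1j) -/
theorem dot_castV (x y : Fin n → ℤ) : dot (castV x) (castV y) = ((dotZ x y : ℤ) : ℝ) := by
  simp [dot, dotZ, castV]

/-- (W1k) -/
theorem castV_vecZ (β : RootD n) : castV β.vecZ = β.vec := by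
  funext k
  simp only [castV, RootD.vecZ, RootD.vec, Int.cast_add]
  congr 1
  · split_ifs
    · cases β.si <;> simp [sgnZ, sgnB]
    · simp
  · split_ifs
    · cases β.sj <;> simp [sgnZ, sgnB]
    · simp

/-- (W1l) -/
theorem castV_rhoZ : castV (rhoZ n) = rhoV n := by
  funext i
  simp [castV, rhoZ, rhoV]

/-! ## roots -/

theorem vecZ_i (β : RootD n) : β.vecZ β.i = sgnZ β.si := by simp [RootD.vecZ, β.ne]

theorem vecZ_j (β : RootD n) : β.vecZ β.j = sgnZ β.sj := by simp [RootD.vecZ, β.ne.symm]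

theorem vecZ_of_ne (β : RootD n) {k : Fin n} (h1 : k ≠ β.i) (h2 : k ≠ β.j) : β.vecZ k = 0 := by
  simp [RootD.vecZ, h1, h2]

theorem dotZ_self_nonneg (x : Fin n → ℤ) : 0 ≤ dotZ x x :=
  Finset.sum_nonneg fun _ _ => mul_self_nonneg _

theorem dotZ_self_eq_zero {x : Fin n → ℤ} (h : dotZ x x = 0) : x = 0 := by
  funext i
  have := (Finset.sum_eq_zero_iff_of_nonneg (fun k _ => mul_self_nonneg (x k))).1 h i
    (Finset.mem_univ i)
  simpa using this

theorem dotZ_self_pos {x : Fin n → ℤ} (h : x ≠ 0) : 0 < dotZ x x :=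
  lt_of_le_of_ne (dotZ_self_nonneg x) fun e => h (dotZ_self_eq_zero e.symm)

theorem actZ_inv_actZ (u : WD n) (x : Fin n → ℤ) : u⁻¹.actZ (u.actZ x) = x := by
  rw [← actZ_mul, inv_mul_cancel, actZ_one]

theorem actZ_actZ_inv (u : WD n) (x : Fin n → ℤ) : u.actZ (u⁻¹.actZ x) = x := by
  rw [← actZ_mul, mul_inv_cancel, actZ_one]

/-- adjointness -/
theorem dotZ_actZ_left (u : WD n) (x y : Fin n → ℤ) :
    dotZ (u.actZ x) y = dotZ x (u⁻¹.actZ y) := by
  rw [← dotZ_actZ u⁻¹, actZ_inv_actZ]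

theorem actZ_neg (u : WD n) (x : Fin n → ℤ) : u.actZ (-x) = - u.actZ x := by
  funext i
  simp [WD.actZ]

theorem actZ_sub (u : WD n) (x y : Fin n → ℤ) : u.actZ (x - y) = u.actZ x - u.actZ y := by
  funext i
  simp [WD.actZ, mul_sub]

theorem actZ_zero (u : WD n) : u.actZ 0 = 0 := by
  funext i
  simp [WD.actZ]

/-- the reflection as a group element -/
theorem reflZ_eq_actZ (β : RootD n) (x : Fin n → ℤ) : reflZ β x = (WD.rmul β 1).actZ x := by
  rw [actZ_rmul, actZ_one]

/-- (W2a) -/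
theorem dotZ_vecZ_self (β : RootD n) : dotZ β.vecZ β.vecZ = 2 := by
  rw [dotZ_vecZ, vecZ_i, vecZ_j, sgnZ_mul_self, sgnZ_mul_self]
  rfl

/-- (W2b) simply laced -/
theorem dotZ_vecZ_vecZ (β γ : RootD n) (h1 : β.vecZ ≠ γ.vecZ) (h2 : β.vecZ ≠ -γ.vecZ) :
    dotZ β.vecZ γ.vecZ = 1 ∨ dotZ β.vecZ γ.vecZ = 0 ∨ dotZ β.vecZ γ.vecZ = -1 := by
  have a1 : 0 < dotZ (β.vecZ - γ.vecZ) (β.vecZ - γ.vecZ) :=
    dotZ_self_pos (sub_ne_zero.2 h1)
  have a2 : 0 < dotZ (β.vecZ + γ.vecZ) (β.vecZ + γ.vecZ) :=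
    dotZ_self_pos fun e => h2 (eq_neg_of_add_eq_zero_left e)
  simp only [dotZ_sub_left, dotZ_sub_right, dotZ_add_left, dotZ_add_right, dotZ_vecZ_self,
    dotZ_comm γ.vecZ β.vecZ] at a1 a2
  omega

/-- (W2c) `W` permutes the roots -/
theorem exists_root_actZ (u : WD n) (γ : RootD n) : ∃ γ' : RootD n, γ'.vecZ = u.actZ γ.vecZ := by
  refine ⟨⟨u.σ γ.i, u.σ γ.j, fun e => γ.ne (u.σ.injective e), xor (u.s (u.σ γ.i)) γ.si,
    xor (u.s (u.σ γ.j)) γ.sj⟩, ?_⟩
  funext k
  simp only [RootD.vecZ, WD.actZ, mul_add, sgnZ_xor]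
  congr 1
  · by_cases h : k = u.σ γ.i
    · subst h
      simp
    · have : u.σ.symm k ≠ γ.i := fun e => h (by rw [← e]; simp)
      simp [h, this]
  · by_cases h : k = u.σ γ.j
    · subst h
      simp
    · have : u.σ.symm k ≠ γ.j := fun e => h (by rw [← e]; simp)
      simp [h, this]

/-- (W2d) -/
theorem exists_root_neg (γ : RootD n) : ∃ γ' : RootD n, γ'.vecZ = -γ.vecZ := by
  refine ⟨⟨γ.i, γ.j, γ.ne, !γ.si, !γ.sj⟩, ?_⟩
  funext k
  simp only [RootD.vecZ, Pi.neg_apply, neg_add]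
  congr 1
  · split_ifs
    · cases γ.si <;> simp [sgnZ]
    · simp
  · split_ifs
    · cases γ.sj <;> simp [sgnZ]
    · simp

/-- (W2e) if `β · γ = -1` then `β + γ` is a root -/
theorem exists_root_add (β γ : RootD n) (h : dotZ β.vecZ γ.vecZ = -1) :
    ∃ δ : RootD n, δ.vecZ = β.vecZ + γ.vecZ := by
  obtain ⟨δ, hδ⟩ := exists_root_actZ (WD.rmul γ 1) β
  refine ⟨δ, ?_⟩
  rw [hδ, ← reflZ_eq_actZ, reflZ, h]
  simp

/-- (W2f) `rmul` only depends on the vector of the root -/
theorem rmul_congr {β γ : RootD n} (h : β.vecZ = γ.vecZ ∨ β.vecZ = -γ.vecZ) (u : WD n) :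
    WD.rmul β u = WD.rmul γ u := by
  apply actZ_injective
  intro x
  rw [actZ_rmul, actZ_rmul]
  rcases h with h | h
  · simp [reflZ, h]
  · simp [reflZ, h, dotZ_neg_right]

/-- strictly dominant integral vectors -/
def RegZ (x : Fin n → ℤ) : Prop := ∀ i j : Fin n, i < j → |x j| < x i

/-- the sign of the leading coordinate of a root -/
def RootD.lead (γ : RootD n) : Bool := if γ.i < γ.j then γ.si else γ.sj

/-- the sign of a root on a strictly dominant vector is the sign of its leading coordinate -/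
theorem regZ_sign {x : Fin n → ℤ} (hx : RegZ x) (γ : RootD n) :
    (0 < dotZ x γ.vecZ ↔ γ.lead = false) ∧ (dotZ x γ.vecZ < 0 ↔ γ.lead = true) := by
  rw [dotZ_vecZ]
  unfold RootD.lead
  rcases lt_or_gt_of_ne γ.ne with h | h
  · have h1 := hx _ _ h
    rw [abs_lt] at h1
    rw [if_pos h]
    rcases γ.si with _ | _ <;> rcases γ.sj with _ | _ <;> simp [sgnZ] <;> omega
  · have h1 := hx _ _ h
    rw [abs_lt] at h1
    rw [if_neg (not_lt.2 h.le)]
    rcases γ.si with _ | _ <;> rcases γ.sj with _ | _ <;> simp [sgnZ] <;> omega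

theorem regZ_rhoZ : RegZ (rhoZ n) := by
  intro i j h
  have h1 : (i : ℕ) < j := h
  have h2 := j.2
  unfold rhoZ
  rw [abs_lt]
  constructor <;> omega

theorem regZ_of_reg {d : Fin n → ℤ} (hd : Ty.D.Reg (castV d)) : RegZ d := by
  intro i j h
  have := hd i j h
  simp only [castV] at this
  exact_mod_cast this

theorem posZ_iff_lead (γ : RootD n) : γ.PosZ ↔ γ.lead = false := by
  unfold RootD.PosZ
  rw [dotZ_comm]
  exact (regZ_sign regZ_rhoZ γ).1

/-- a strictly dominant vector is positive exactly on the positive roots -/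
theorem regZ_pos_iff {x : Fin n → ℤ} (hx : RegZ x) (γ : RootD n) :
    0 < dotZ x γ.vecZ ↔ γ.PosZ := by
  rw [posZ_iff_lead]
  exact (regZ_sign hx γ).1

theorem regZ_neg_iff {x : Fin n → ℤ} (hx : RegZ x) (γ : RootD n) :
    dotZ x γ.vecZ < 0 ↔ ¬ γ.PosZ := by
  rw [posZ_iff_lead, Bool.not_eq_false]
  exact (regZ_sign hx γ).2

theorem regZ_ne {x : Fin n → ℤ} (hx : RegZ x) (γ : RootD n) : dotZ x γ.vecZ ≠ 0 := by
  by_cases h : γ.PosZ
  · exact ((regZ_pos_iff hx γ).2 h).ne'
  · exact ((regZ_neg_iff hx γ).2 h).ne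

/-- (W3a) `ρ` is regular -/
theorem dotZ_rho_ne (u : WD n) (β : RootD n) : dotZ (u.actZ (rhoZ n)) β.vecZ ≠ 0 := by
  obtain ⟨γ, hγ⟩ := exists_root_actZ u⁻¹ β
  rw [dotZ_actZ_left, ← hγ]
  exact regZ_ne regZ_rhoZ γ

/-- (W3b) a regular dominant vector has the same signs as `ρ` in every frame -/
theorem sign_reg (d : Fin n → ℤ) (hd : Ty.D.Reg (castV d)) (u : WD n) (β : RootD n) :
    (0 < dotZ (u.actZ d) β.vecZ ↔ 0 < dotZ (u.actZ (rhoZ n)) β.vecZ) ∧
      (dotZ (u.actZ d) β.vecZ < 0 ↔ dotZ (u.actZ (rhoZ n)) β.vecZ < 0) := by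
  obtain ⟨γ, hγ⟩ := exists_root_actZ u⁻¹ β
  rw [dotZ_actZ_left, dotZ_actZ_left, ← hγ]
  have h1 := regZ_of_reg hd
  exact ⟨by rw [regZ_pos_iff h1, regZ_pos_iff regZ_rhoZ],
    by rw [regZ_neg_iff h1, regZ_neg_iff regZ_rhoZ]⟩

/-- simple roots: positive and indecomposable -/
def IsSimpleR (α : RootD n) : Prop :=
  α.PosZ ∧ ∀ β γ : RootD n, β.PosZ → γ.PosZ → β.vecZ + γ.vecZ ≠ α.vecZ

theorem posZ_or_neg (γ : RootD n) : 0 < dotZ γ.vecZ (rhoZ n) ∨ dotZ γ.vecZ (rhoZ n) < 0 := by
  have := regZ_ne regZ_rhoZ γ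
  rw [dotZ_comm] at this
  omega

/-- (W4) a simple reflection permutes the other positive roots -/
theorem simple_refl_pos {α : RootD n} (hα : IsSimpleR α) (β : RootD n) (hβ : β.PosZ)
    (hne : β.vecZ ≠ α.vecZ) : ∃ β' : RootD n, β'.vecZ = reflZ α β.vecZ ∧ β'.PosZ := by
  obtain ⟨β', hβ'⟩ := exists_root_actZ (WD.rmul α 1) β
  rw [← reflZ_eq_actZ] at hβ'
  refine ⟨β', hβ', ?_⟩
  have hαp : 0 < dotZ α.vecZ (rhoZ n) := hα.1
  have hβp : 0 < dotZ β.vecZ (rhoZ n) := hβ
  have hne2 : β.vecZ ≠ -α.vecZ := by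
    intro e
    rw [e, dotZ_neg_left] at hβp
    omega
  have e1 : dotZ β'.vecZ (rhoZ n)
      = dotZ β.vecZ (rhoZ n) - dotZ β.vecZ α.vecZ * dotZ α.vecZ (rhoZ n) := by
    rw [hβ', reflZ, dotZ_sub_left, dotZ_smul_left]
  show 0 < dotZ β'.vecZ (rhoZ n)
  rcases dotZ_vecZ_vecZ β α hne hne2 with h | h | h
  · rcases posZ_or_neg β' with h3 | h3
    · exact h3
    · exfalso
      obtain ⟨δ, hδ⟩ := exists_root_neg β'
      refine hα.2 β δ hβ ?_ ?_
      · show 0 < dotZ δ.vecZ (rhoZ n)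
        rw [hδ, dotZ_neg_left]
        omega
      · rw [hδ, hβ', reflZ, h]
        simp
  · rw [e1, h]
    omega
  · rw [e1, h]
    omega

/-- (W5a) -/
theorem rmul_rmul (β : RootD n) (u : WD n) : WD.rmul β (WD.rmul β u) = u := by
  apply actZ_injective
  intro x
  rw [actZ_rmul, actZ_rmul]
  generalize u.actZ x = y
  simp only [reflZ, dotZ_sub_left, dotZ_smul_left, dotZ_vecZ_self]
  funext k
  simp only [Pi.sub_apply, Pi.smul_apply, smul_eq_mul]
  ring

/-- (W5b) `s_α s_β = s_{s_α β} s_α` -/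
theorem rmul_comm_conj (α β β' : RootD n) (h : β'.vecZ = reflZ α β.vecZ) (u : WD n) :
    WD.rmul α (WD.rmul β u) = WD.rmul β' (WD.rmul α u) := by
  apply actZ_injective
  intro x
  rw [actZ_rmul, actZ_rmul, actZ_rmul, actZ_rmul]
  generalize u.actZ x = y
  conv_rhs => rw [reflZ, h]
  have e : dotZ (reflZ α y) (reflZ α β.vecZ) = dotZ y β.vecZ := by
    rw [reflZ_eq_actZ, reflZ_eq_actZ, dotZ_actZ]
  rw [e]
  conv_lhs => rw [reflZ_eq_actZ, reflZ, actZ_sub, actZ_smul, ← reflZ_eq_actZ, ← reflZ_eq_actZ]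

/-- (W5c) there is a group element `s_β` -/
theorem rmul_eq_mul (β : RootD n) (u : WD n) : WD.rmul β u = WD.rmul β 1 * u := by
  apply actZ_injective
  intro x
  rw [actZ_rmul, actZ_mul, reflZ_eq_actZ]

/-! ### simple roots, explicitly -/

theorem simple_of_rho_one {α : RootD n} (h : dotZ α.vecZ (rhoZ n) = 1) : IsSimpleR α := by
  refine ⟨by show 0 < dotZ α.vecZ (rhoZ n); omega, fun β γ hβ hγ e => ?_⟩
  have h1 : 0 < dotZ β.vecZ (rhoZ n) := hβ
  have h2 : 0 < dotZ γ.vecZ (rhoZ n) := hγ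
  rw [← e, dotZ_add_left] at h
  omega

theorem exists_root_sorted (α : RootD n) : ∃ α' : RootD n, α'.vecZ = α.vecZ ∧ α'.i < α'.j := by
  rcases lt_or_gt_of_ne α.ne with h | h
  · exact ⟨α, rfl, h⟩
  · refine ⟨⟨α.j, α.i, α.ne.symm, α.sj, α.si⟩, ?_, h⟩
    funext k
    simp only [RootD.vecZ]
    ring

theorem posZ_mk_of_lt {a b : Fin n} (h : a < b) (sb : Bool) :
    (⟨a, b, h.ne, false, sb⟩ : RootD n).PosZ := by
  rw [posZ_iff_lead]
  simp [RootD.lead, h]

theorem domZ_pos_nonneg {x : Fin n → ℤ} (hx : DomZ x) {γ : RootD n} (hγ : γ.PosZ) :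
    0 ≤ dotZ x γ.vecZ := by
  rw [posZ_iff_lead] at hγ
  rw [dotZ_vecZ]
  unfold RootD.lead at hγ
  rcases lt_or_gt_of_ne γ.ne with h | h
  · have h1 := hx _ _ h
    rw [abs_le] at h1
    rw [if_pos h] at hγ
    rw [hγ]
    rcases γ.sj with _ | _ <;> simp [sgnZ] <;> omega
  · have h1 := hx _ _ h
    rw [abs_le] at h1
    rw [if_neg (not_lt.2 h.le)] at hγ
    rw [hγ]
    rcases γ.si with _ | _ <;> simp [sgnZ] <;> omega

theorem rho_simple_sorted (α : RootD n) (hij : α.i < α.j) (hpos : α.PosZ)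
    (hind : ∀ β γ : RootD n, β.PosZ → γ.PosZ → β.vecZ + γ.vecZ ≠ α.vecZ) :
    dotZ (rhoZ n) α.vecZ = 1 := by
  obtain ⟨i, j, hne, si, sj⟩ := α
  simp only at hij
  have hsi : si = false := by
    rw [posZ_iff_lead] at hpos
    simpa [RootD.lead, hij] using hpos
  subst hsi
  have hij' : (i : ℕ) < j := hij
  have hj := j.2
  by_cases h1 : (i : ℕ) + 1 < j
  · -- split at `k = i + 1`
    exfalso
    let k : Fin n := ⟨i + 1, by omega⟩
    have hik : i < k := by show (i : ℕ) < i + 1; omega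
    have hkj : k < j := h1
    refine hind ⟨i, k, hik.ne, false, true⟩ ⟨k, j, hkj.ne, false, sj⟩ (posZ_mk_of_lt hik _)
      (posZ_mk_of_lt hkj _) ?_
    funext m
    simp only [RootD.vecZ, Pi.add_apply]
    by_cases m1 : m = k
    · subst m1
      simp [hik.ne', hkj.ne, sgnZ]
    · simp [m1]
  · have h2 : (j : ℕ) = i + 1 := by omega
    cases sj with
    | true =>
      rw [dotZ_vecZ]
      simp only [rhoZ, sgnZ]
      simp
      omega
    | false =>
      by_cases h3 : (j : ℕ) + 1 < n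
      · exfalso
        let k : Fin n := ⟨j + 1, h3⟩
        have hjk : j < k := by show (j : ℕ) < j + 1; omega
        have hik : i < k := hij.trans hjk
        refine hind ⟨i, k, hik.ne, false, true⟩ ⟨j, k, hjk.ne, false, false⟩ (posZ_mk_of_lt hik _)
          (posZ_mk_of_lt hjk _) ?_
        funext m
        simp only [RootD.vecZ, Pi.add_apply]
        by_cases m1 : m = k
        · subst m1
          simp [hik.ne', hjk.ne', sgnZ]
        · simp [m1]
      · rw [dotZ_vecZ]
        simp only [rhoZ, sgnZ]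
        simp
        omega

theorem domZ_of_simple {x : Fin n → ℤ} (h : ∀ α : RootD n, IsSimpleR α → 0 ≤ dotZ x α.vecZ) :
    DomZ x := by
  -- consecutive differences
  have hA : ∀ (i k : Fin n), (k : ℕ) = i + 1 → x k ≤ x i := by
    intro i k hk
    have hik : i < k := by show (i : ℕ) < k; omega
    have := h ⟨i, k, hik.ne, false, true⟩ (simple_of_rho_one (by
      rw [dotZ_comm, dotZ_vecZ]
      simp only [rhoZ, sgnZ]
      simp
      omega))
    rw [dotZ_vecZ] at this
    simp [sgnZ] at this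
    omega
  have hmono : ∀ (d : ℕ) (i j : Fin n), (j : ℕ) = i + d → x j ≤ x i := by
    intro d
    induction d with
    | zero =>
      intro i j hj
      have : j = i := Fin.ext (by omega)
      rw [this]
    | succ d ih =>
      intro i j hj
      have hj2 := j.2
      let k : Fin n := ⟨i + d, by omega⟩
      exact (hA k j (by show (j : ℕ) = i + d + 1; omega)).trans (ih i k rfl)
  intro i j hij
  have hij' : (i : ℕ) < j := hij
  have hj2 := j.2
  rw [abs_le]
  refine ⟨?_, hmono (j - i) i j (by omega)⟩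
  -- the last two indices
  let a : Fin n := ⟨n - 2, by omega⟩
  let b : Fin n := ⟨n - 1, by omega⟩
  have hab : a < b := by show n - 2 < n - 1; omega
  have hD := h ⟨a, b, hab.ne, false, false⟩ (simple_of_rho_one (by
      rw [dotZ_comm, dotZ_vecZ]
      simp only [rhoZ, sgnZ, a, b]
      simp
      omega))
  rw [dotZ_vecZ] at hD
  simp [sgnZ] at hD
  have e1 : x b ≤ x j := hmono (n - 1 - j) j b (by show n - 1 = j + (n - 1 - j); omega)
  have e2 : x a ≤ x i := hmono (n - 2 - i) i a (by show n - 2 = i + (n - 2 - i); omega)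
  omega

theorem dotZ_reflZ_left (α : RootD n) (y z : Fin n → ℤ) :
    dotZ (reflZ α y) z = dotZ y z - dotZ y α.vecZ * dotZ α.vecZ z := by
  rw [reflZ, dotZ_sub_left, dotZ_smul_left]

theorem regZ_add_rho {κ : Fin n → ℤ} (h : DomZ κ) : RegZ (κ + rhoZ n) := by
  intro i j hij
  have h1 := h i j hij
  have h2 := regZ_rhoZ i j hij
  rw [abs_le] at h1
  rw [abs_lt] at h2 ⊢
  simp only [Pi.add_apply]
  constructor <;> omega

/-- a vector which is `≥ 1` on all simple roots is `ρ` + dominant -/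
theorem domZ_sub_rho {y : Fin n → ℤ} (h : ∀ α : RootD n, IsSimpleR α → 0 < dotZ y α.vecZ) :
    DomZ (y - rhoZ n) := by
  apply domZ_of_simple
  intro α hα
  have h1 := h α hα
  have h2 : dotZ (rhoZ n) α.vecZ = 1 := by
    obtain ⟨α', h1, h2⟩ := exists_root_sorted α
    rw [← h1]
    refine rho_simple_sorted α' h2 ?_ ?_
    · show 0 < dotZ α'.vecZ (rhoZ n)
      rw [h1]
      exact hα.1
    · rw [h1]
      exact hα.2
  rw [dotZ_sub_left, h2]
  omega

/-- a strictly dominant vector is fixed only by the identity, and two strictly dominant vectors in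
one orbit are equal -/
theorem regZ_free {x x' : Fin n → ℤ} (hx : RegZ x) (hx' : RegZ x') {w : WD n}
    (e : w.actZ x = x') : w = 1 := by
  have habs : ∀ i, |x' i| = |x (w.σ.symm i)| := by
    intro i
    rw [← e]
    simp only [WD.actZ, abs_mul]
    cases w.s i <;> simp [sgnZ]
  have hmono : StrictMono (fun i => w.σ.symm i) := by
    intro i j hij
    have h1 : |x' j| < |x' i| := lt_of_lt_of_le (hx' i j hij) (le_abs_self _)
    rw [habs, habs] at h1
    by_contra hcon
    rcases lt_or_eq_of_le (not_lt.1 hcon) with h2 | h2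
    · have h3 := lt_of_lt_of_le (hx _ _ h2) (le_abs_self _)
      exact absurd h1 (not_lt.2 h3.le)
    · have := w.σ.symm.injective h2
      exact absurd this hij.ne'
  have hσ : ∀ i, w.σ.symm i = i := by
    have := hmono.eq_id
    intro i
    exact congrFun this i
  have hs1 : ∀ i j : Fin n, i < j → w.s i = false := by
    intro i j hij
    have h1 : 0 < x i := lt_of_le_of_lt (abs_nonneg _) (hx i j hij)
    have h2 : 0 < x' i := lt_of_le_of_lt (abs_nonneg _) (hx' i j hij)
    rw [← e] at h2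
    simp only [WD.actZ, hσ] at h2
    revert h2
    cases w.s i
    · simp
    · simp only [sgnZ, if_true]
      intro h2
      omega
  have hs : ∀ i, w.s i = false := by
    intro i
    by_cases hi : ∃ j, i < j
    · obtain ⟨j, hj⟩ := hi
      exact hs1 i j hj
    · push Not at hi
      have hp := WD.prod_sgnZ w
      rw [Finset.prod_eq_single i] at hp
      · revert hp
        cases w.s i <;> simp [sgnZ]
      · intro k _ hk
        rw [hs1 k i (lt_of_le_of_ne (hi k) hk)]
        rfl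
      · intro h
        exact absurd (Finset.mem_univ i) h
  apply WD.ext'
  · apply Equiv.ext
    intro i
    have := hσ (w.σ i)
    rw [Equiv.symm_apply_apply] at this
    exact this.symm
  · funext i
    exact hs i

/-- (W6a) every integral vector is on a wall or conjugate to a strictly dominant one -/
theorem wall_or_regular (x : Fin n → ℤ) :
    (∃ β : RootD n, dotZ x β.vecZ = 0) ∨
      ∃ (w : WD n) (κ : Fin n → ℤ), DomZ κ ∧ x = w.actZ (κ + rhoZ n) := by
  by_cases hw : ∃ β : RootD n, dotZ x β.vecZ = 0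
  · exact Or.inl hw
  · right
    push Not at hw
    obtain ⟨w, hmax⟩ := Finite.exists_max (fun w : WD n => dotZ (w.actZ x) (rhoZ n))
    have hpos : ∀ α : RootD n, α.PosZ → 0 < dotZ (w.actZ x) α.vecZ := by
      intro α hα
      have hα' : 0 < dotZ α.vecZ (rhoZ n) := hα
      have h1 := hmax (WD.rmul α w)
      simp only [actZ_rmul, dotZ_reflZ_left] at h1
      have h2 : dotZ (w.actZ x) α.vecZ ≠ 0 := by
        obtain ⟨γ, hγ⟩ := exists_root_actZ w⁻¹ α
        rw [dotZ_actZ_left, ← hγ]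
        exact hw γ
      by_contra h3
      have h4 : dotZ (w.actZ x) α.vecZ < 0 := by omega
      have := mul_neg_of_neg_of_pos h4 hα'
      omega
    refine ⟨w⁻¹, w.actZ x - rhoZ n, domZ_sub_rho fun α hα => hpos α hα.1, ?_⟩
    rw [sub_add_cancel, actZ_inv_actZ]

/-- (W6b) the action is free on strictly dominant vectors, the chamber is a fundamental domain -/
theorem strict_dom_unique {κ κ' : Fin n → ℤ} (h : DomZ κ) (h' : DomZ κ') {w : WD n}
    (e : w.actZ (κ + rhoZ n) = κ' + rhoZ n) : w = 1 ∧ κ = κ' := by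
  have h1 := regZ_free (regZ_add_rho h) (regZ_add_rho h') e
  refine ⟨h1, ?_⟩
  rw [h1, actZ_one] at e
  exact add_right_cancel e

/-- (W7a) -/
theorem altW_eq_sum (F : (Fin n → ℤ) → ℤ) (x : Fin n → ℤ) :
    altW F x = ∑ w : WD n, w.det * F (w.actZ x) := by
  unfold altW
  rw [← Finset.sum_product', ← Finset.sum_filter]
  symm
  apply Finset.sum_nbij (fun w : WD n => (w.σ, w.s))
  · intro w _
    simp only [Finset.mem_filter, Finset.mem_product, Finset.mem_univ, true_and]
    exact w.even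
  · intro u _ v _ h
    simp only [Prod.mk.injEq] at h
    exact WD.ext' h.1 h.2
  · intro p hp
    simp only [Finset.coe_filter, Finset.mem_product, Finset.mem_univ, true_and,
      Set.mem_ofPred_eq] at hp
    exact ⟨⟨p.1, p.2, hp⟩, by simp, rfl⟩
  · intro w _
    rfl

/-- (W7b) -/
theorem det_mul (u v : WD n) : (u * v).det = u.det * v.det := by
  show ((Equiv.Perm.sign (u.σ * v.σ) : ℤˣ) : ℤ) = _
  rw [Equiv.Perm.sign_mul, Units.val_mul]
  rfl

/-- (W7c) -/
theorem det_rmul (β : RootD n) (u : WD n) : (WD.rmul β u).det = - u.det := by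
  show ((Equiv.Perm.sign (Equiv.swap β.i β.j * u.σ) : ℤˣ) : ℤ) = _
  rw [Equiv.Perm.sign_mul, Equiv.Perm.sign_swap β.ne, Units.val_mul]
  simp [WD.det]

/-- (W7d) -/
theorem det_mul_self (u : WD n) : u.det * u.det = 1 := by
  unfold WD.det
  exact Int.units_coe_mul_self _

/-- (W8) `W` is generated by the simple reflections -/
theorem WD.induction_simple {P : WD n → Prop} (h1 : P 1)
    (hs : ∀ (α : RootD n) (u : WD n), IsSimpleR α → P u → P (WD.rmul α u)) (u : WD n) : P u := by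
  have wf : WellFounded (fun a b : WD n =>
      dotZ (b.actZ (rhoZ n)) (rhoZ n) < dotZ (a.actZ (rhoZ n)) (rhoZ n)) := by
    have : IsTrans (WD n) (fun a b : WD n =>
      dotZ (b.actZ (rhoZ n)) (rhoZ n) < dotZ (a.actZ (rhoZ n)) (rhoZ n)) :=
      ⟨fun a b c h1 h2 => lt_trans h2 h1⟩
    have : Std.Irrefl (fun a b : WD n =>
      dotZ (b.actZ (rhoZ n)) (rhoZ n) < dotZ (a.actZ (rhoZ n)) (rhoZ n)) :=
      ⟨fun a h => lt_irrefl _ h⟩
    exact Finite.wellFounded_of_trans_of_irrefl _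
  induction u using wf.induction with
  | _ u ih =>
    by_cases hd : ∀ α : RootD n, IsSimpleR α → 0 < dotZ (u.actZ (rhoZ n)) α.vecZ
    · have h2 := domZ_sub_rho hd
      have h3 : u = 1 := regZ_free regZ_rhoZ (regZ_add_rho h2) (w := u) (by rw [sub_add_cancel])
      rw [h3]
      exact h1
    · push Not at hd
      obtain ⟨α, hα, hneg⟩ := hd
      have hne := dotZ_rho_ne u α
      have hneg' : dotZ (u.actZ (rhoZ n)) α.vecZ < 0 := by omega
      have hα' : 0 < dotZ α.vecZ (rhoZ n) := hα.1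
      have := ih (WD.rmul α u) (by
        rw [actZ_rmul, dotZ_reflZ_left]
        have := mul_neg_of_neg_of_pos hneg' hα'
        omega)
      have h4 := hs α _ hα this
      rwa [rmul_rmul] at h4

/-- (W9a) the chamber is cut out by the simple roots -/
theorem domZ_iff_simple (x : Fin n → ℤ) :
    DomZ x ↔ ∀ α : RootD n, IsSimpleR α → 0 ≤ dotZ x α.vecZ := by
  exact ⟨fun h α hα => domZ_pos_nonneg h hα.1, domZ_of_simple⟩

/-- (W9b) -/
theorem dotZ_rho_simple {α : RootD n} (hα : IsSimpleR α) : dotZ (rhoZ n) α.vecZ = 1 := by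
  obtain ⟨α', h1, h2⟩ := exists_root_sorted α
  rw [← h1]
  refine rho_simple_sorted α' h2 ?_ ?_
  · show 0 < dotZ α'.vecZ (rhoZ n)
    rw [h1]
    exact hα.1
  · rw [h1]
    exact hα.2

/-- (W9c) -/
theorem domZ_iff (x : Fin n → ℤ) : DomZ x ↔ Ty.D.Dom (castV x) := by
  constructor
  · intro h i j hij
    have := h i j hij
    simp only [castV]
    exact_mod_cast this
  · intro h i j hij
    have := h i j hij
    simp only [castV] at this
    exact_mod_cast this

end Claimed.Agent.R282
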